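import Vale.Agent.P280.H60.Sgn

/-! P280, T7, helper60, END: the choice of the point `z`. -/

open DirectSum Vale.Agent.P280.T Vale.Agent.P280.H127

namespace Vale.Agent.P280.H60

open Vale.Agent.P280.N Vale.Agent.P280.H490 Vale.Agent.P280.H143
open Vale.Agent.P280.N.H989

variable {r : ℕ} {R : Type} [CommRing R] [IsDomain R] [Algebra ℂ R]
  {𝒜 : ℕ × (Fin r → ℤ) → Submodule ℂ R} [GradedAlgebra 𝒜]

theorem nu_bound (H : H63X.Hyp 𝒜) (g : (Fin r → ℤ) →+ ℤ) :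
    ∃ K : ℤ, 0 ≤ K ∧ ∀ y : FP 𝒜, |g y.ν| ≤ K := by
  have hfin : (H587.wts 𝒜).Finite := finite_weights H.hX
  have h1 : ((fun m => |g m|) '' H587.wts 𝒜).Finite := hfin.image _
  obtain ⟨K, hK⟩ := h1.bddAbove
  exact ⟨max K 0, le_max_right _ _, fun y =>
    le_max_of_le_left (hK ⟨y.ν, H63X.nu_mem H y, rfl⟩)⟩

variable {N : ℤ} {b : (Fin r → ℤ) → ((Fin r → ℤ) →+ ℤ)} {al : (Fin r → ℤ) → ℂ}
  {E F : (Fin r → ℤ) → Derivation ℂ R R} {a : (Fin r → ℤ) → FP 𝒜 → ℤ}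

theorem RD.bound (H : H63X.Hyp 𝒜) (h : RD 𝒜 N b al E F a) {χ : Fin r → ℤ} (hχ : Vx 𝒜 χ) :
    ∃ K : ℤ, 0 ≤ K ∧ ∀ y : FP 𝒜, |a χ y| ≤ K := by
  obtain ⟨K, hK0, hK⟩ := nu_bound H (b χ)
  have hχ' := hχ
  obtain ⟨⟨y0, -⟩, -⟩ := hχ
  refine ⟨|a χ y0| + 2 * K, by positivity, fun y => ?_⟩
  have h1 := h.dif hχ' y0 y
  have h2 := hK y0
  have h3 := hK y
  have hN := h.N0
  have h4 : |a χ y - a χ y0| ≤ 2 * K := by
    rw [abs_le] at h2 h3 ⊢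
    constructor <;> nlinarith
  have h5 : a χ y = a χ y0 + (a χ y - a χ y0) := by ring
  calc |a χ y| = |a χ y0 + (a χ y - a χ y0)| := by rw [← h5]
    _ ≤ |a χ y0| + |a χ y - a χ y0| := abs_add_le _ _
    _ ≤ |a χ y0| + 2 * K := by linarith

/-- **Choice of `z`** in a set `P` of fixed points: maximal norm, then minimal for `l`. -/
theorem exists_min (H : H63X.Hyp 𝒜) (h : RD 𝒜 N b al E F a) {P : FP 𝒜 → Prop}
    (hP : ∃ z, P z) : ∃ (z : FP 𝒜) (l' : (Fin r → ℤ) →+ ℤ), P z ∧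
      (∀ y, P y → l' z.ν ≤ l' y.ν) ∧ (∀ ω, Wt 𝒜 ω → l' ω ≠ 0) ∧
      ∀ ω, Wt 𝒜 ω → l' ω < 0 → ∑ χ ∈ H63X.VV H, a χ z * b χ ω ≤ 0 := by
  classical
  have hvx : ∀ χ ∈ H63X.VV H, Vx 𝒜 χ := fun χ hχ => (H63X.mem_VV H).1 hχ
  -- the norm
  set A : FP 𝒜 → ℤ := fun y => ∑ χ ∈ H63X.VV H, a χ y * a χ y with hA
  have hAb : ∃ C : ℤ, ∀ y, A y ≤ C := by
    have h1 : ∀ χ : Fin r → ℤ, ∃ K : ℤ, χ ∈ H63X.VV H → 0 ≤ K ∧ ∀ y : FP 𝒜, |a χ y| ≤ K := by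
      intro χ
      by_cases hχ : χ ∈ H63X.VV H
      · obtain ⟨K, hK⟩ := h.bound H (hvx χ hχ)
        exact ⟨K, fun _ => hK⟩
      · exact ⟨0, fun h => absurd h hχ⟩
    choose K hK using h1
    refine ⟨∑ χ ∈ H63X.VV H, K χ * K χ, fun y => Finset.sum_le_sum fun χ hχ => ?_⟩
    obtain ⟨h0, h2⟩ := hK χ hχ
    have h3 := h2 y
    rw [← abs_mul_abs_self]
    exact mul_self_le_mul_self (abs_nonneg _) h3
  obtain ⟨C, hC⟩ := hAb
  obtain ⟨M, ⟨z0, hz0, hzM⟩, hM⟩ := Int.exists_greatest_of_bdd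
    (P := fun n => ∃ y, P y ∧ A y = n) ⟨C, fun n ⟨y, _, hy⟩ => hy ▸ hC y⟩
    (by obtain ⟨z, hz⟩ := hP; exact ⟨_, z, hz, rfl⟩)
  -- a generic functional
  obtain ⟨l, hl⟩ := H587.exists_generic ((H63X.C07.wt_finite H).union
    (Set.finite_singleton (0 : Fin r → ℤ)))
  have hl0 : ∀ ω, Wt 𝒜 ω → l ω ≠ 0 := by
    intro ω hω h0
    have h1 := hl (Or.inl hω) (Or.inr rfl : (0 : Fin r → ℤ) ∈ _) (by rw [h0, map_zero])
    exact H63X.c03_wt_ne_zero H hω h1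
  obtain ⟨K1, hK10, hK1⟩ := nu_bound H l
  obtain ⟨K2, hK20, hK2⟩ := H63X.C07.wt_bound H l
  -- the minimum of `l` on the class of `z0`
  obtain ⟨m, ⟨z, ⟨hz, hza⟩, hzm⟩, hm⟩ := Int.exists_least_of_bdd
    (P := fun n => ∃ y, (P y ∧ ∀ χ ∈ H63X.VV H, a χ y = a χ z0) ∧ l y.ν = n)
    ⟨-K1, fun n ⟨y, _, hy⟩ => hy ▸ (abs_le.1 (hK1 y)).1⟩ ⟨_, z0, ⟨hz0, fun _ _ => rfl⟩, rfl⟩
  have hAz : A z = M := by
    rw [← hzM]
    exact Finset.sum_congr rfl fun χ hχ => by rw [hza χ hχ]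
  set l0 : (Fin r → ℤ) →+ ℤ := ∑ χ ∈ H63X.VV H, (a χ z) • b χ with hl0d
  have hl0v : ∀ ω, l0 ω = ∑ χ ∈ H63X.VV H, a χ z * b χ ω := by
    intro ω
    rw [hl0d, AddMonoidHom.finsetSum_apply]
    exact Finset.sum_congr rfl fun χ _ => by rw [AddMonoidHom.smul_apply, smul_eq_mul]
  set K : ℤ := 2 * K1 + K2 + 1 with hK
  have hN := h.N0
  refine ⟨z, K • l0 + l, hz, ?_, ?_, ?_⟩
  · intro y hy
    rw [AddMonoidHom.add_apply, AddMonoidHom.add_apply, AddMonoidHom.smul_apply,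
      AddMonoidHom.smul_apply, smul_eq_mul, smul_eq_mul]
    have h1 : l0 y.ν - l0 z.ν = N * (∑ χ ∈ H63X.VV H, (a χ z * a χ z - a χ z * a χ y)) := by
      rw [hl0v, hl0v, ← Finset.sum_sub_distrib, Finset.mul_sum]
      refine Finset.sum_congr rfl fun χ hχ => ?_
      have h2 := h.dif (hvx χ hχ) z y
      linear_combination a χ z * h2
    have h2 : 2 * (∑ χ ∈ H63X.VV H, (a χ z * a χ z - a χ z * a χ y)) =
        (A z - A y) + ∑ χ ∈ H63X.VV H, (a χ z - a χ y) * (a χ z - a χ y) := by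
      rw [hA, ← Finset.sum_sub_distrib, Finset.mul_sum, ← Finset.sum_add_distrib]
      exact Finset.sum_congr rfl fun χ _ => by ring
    have h3 : A y ≤ A z := by
      rw [hAz]
      exact hM _ ⟨y, hy, rfl⟩
    have h4 : 0 ≤ ∑ χ ∈ H63X.VV H, (a χ z - a χ y) * (a χ z - a χ y) :=
      Finset.sum_nonneg fun χ _ => mul_self_nonneg _
    by_cases hall : ∀ χ ∈ H63X.VV H, a χ y = a χ z
    · have h5 : l0 y.ν = l0 z.ν := by
        have h6 : ∑ χ ∈ H63X.VV H, (a χ z * a χ z - a χ z * a χ y) = 0 :=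
          Finset.sum_eq_zero fun χ hχ => by rw [hall χ hχ]; ring
        rw [h6, mul_zero] at h1
        linarith
      have h6 : l z.ν ≤ l y.ν := by
        rw [hzm]
        exact hm _ ⟨y, ⟨hy, fun χ hχ => by rw [hall χ hχ, hza χ hχ]⟩, rfl⟩
      rw [h5]
      linarith
    · push Not at hall
      obtain ⟨χ, hχ, hne⟩ := hall
      have h5 : 0 < ∑ χ ∈ H63X.VV H, (a χ z - a χ y) * (a χ z - a χ y) := by
        refine Finset.sum_pos' (fun χ _ => mul_self_nonneg _) ⟨χ, hχ, ?_⟩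
        exact mul_self_pos.2 (sub_ne_zero.2 hne.symm)
      have h6 : 1 ≤ ∑ χ ∈ H63X.VV H, (a χ z * a χ z - a χ z * a χ y) := by omega
      have h7 : 1 ≤ l0 y.ν - l0 z.ν := by
        rw [h1]
        nlinarith
      have h8 := abs_le.1 (hK1 y)
      have h9 := abs_le.1 (hK1 z)
      nlinarith
  · intro ω hω
    rw [AddMonoidHom.add_apply, AddMonoidHom.smul_apply, smul_eq_mul]
    have h1 := abs_le.1 (hK2 ω hω)
    rcases lt_trichotomy (l0 ω) 0 with h2 | h2 | h2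
    · have : K * l0 ω + l ω < 0 := by nlinarith
      omega
    · rw [h2, mul_zero, zero_add]
      exact hl0 ω hω
    · have : 0 < K * l0 ω + l ω := by nlinarith
      omega
  · intro ω hω hneg
    rw [AddMonoidHom.add_apply, AddMonoidHom.smul_apply, smul_eq_mul] at hneg
    rw [← hl0v]
    by_contra hcon
    push Not at hcon
    have h1 := abs_le.1 (hK2 ω hω)
    nlinarith

end Vale.Agent.P280.H60
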