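import Vale.Agent.P280.H60.Rt
import Vale.Agent.P280.H83.Api2

/-! P280, T7, helper60, END: root data for all vertices, signs of the roots at the fixed points. -/

open DirectSum Vale.Agent.P280.T Vale.Agent.P280.H127

namespace Vale.Agent.P280.H60

open Vale.Agent.P280.N Vale.Agent.P280.H490 Vale.Agent.P280.H143
open Vale.Agent.P280.N.H989

variable {r : ℕ} {R : Type} [CommRing R] [IsDomain R] [Algebra ℂ R]
  {𝒜 : ℕ × (Fin r → ℤ) → Submodule ℂ R} [GradedAlgebra 𝒜]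

/-- The orbit of the `sl2` through `y`. -/
theorem Rt.orb (H : H63X.Hyp 𝒜) {N : ℤ} (hN : 0 < N) {χ : Fin r → ℤ} {β : (Fin r → ℤ) →+ ℤ}
    {α : ℂ} {E F : Derivation ℂ R R} (hR : Rt 𝒜 N χ β α E F) (y : FP 𝒜)
    (hF0 : ∀ h, y.q (F h) = 0) :
    ∃ n : ℕ, -(α + (β y.ν : ℂ)) = (N : ℂ) * n ∧ (n = 0 → ∀ h, y.q (E h) = 0) := by
  have hNC : (N : ℂ) ≠ 0 := by exact_mod_cast hN.ne'
  let b : (Fin r → ℤ) →+ ℂ :=
    (AddMonoidHom.mulLeft ((N : ℂ)⁻¹)).comp ((Int.castAddHom ℂ).comp β)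
  have hbv : ∀ m, b m = (N : ℂ)⁻¹ * (β m : ℂ) := fun m => rfl
  have hb : b χ = 2 := by
    rw [hbv, hR.two]
    push_cast
    field_simp
  have hF' : H93.IsHField 𝒜 (-χ) (((N : ℂ)⁻¹) • F) := fun d m h hh => by
    rw [Derivation.smul_apply]
    exact Submodule.smul_mem _ _ (hR.hF d m h hh)
  have hH : ∀ (d : ℕ) (m : Fin r → ℤ), ∀ h ∈ 𝒜 (d, m),
      ⁅((N : ℂ)⁻¹) • F, E⁆ h = (b m + ((N : ℂ)⁻¹ * α) * d) • h := by
    intro d m h hh
    have h1 := hR.br d m h hh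
    rw [Derivation.commutator_apply, Derivation.smul_apply, Derivation.smul_apply, E.map_smul,
      ← smul_sub, ← neg_sub (E (F h)), h1, neg_neg, smul_smul, hbv]
    congr 1
    ring
  obtain ⟨n, z, hn, O⟩ := H224.exists_orb H.hX y.nv y.fix hR.hE hF' hb hH (fun h => by
    rw [Derivation.smul_apply, map_smul, hF0, smul_zero])
  refine ⟨n, ?_, ?_⟩
  · rw [hn, hbv]
    field_simp
    ring
  · intro h0 h
    have hχ0 : χ ≠ 0 := by
      intro h0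
      rw [h0, map_zero] at hb
      exact two_ne_zero hb.symm
    have key : y.q.toLinearMap.comp (E : R →ₗ[ℂ] R) = 0 := by
      apply linearMap_ext_graded 𝒜
      rintro ⟨d, m⟩ x hx
      change y.q (E x) = 0
      by_contra hne
      have h1 : m - χ = d • y.ν := y.fix d _ _ (hR.hE d m x hx) hne
      have h2 : z (E x) = y.q (E x) := O.zy d (E x) (by rw [← h1]; exact hR.hE d m x hx)
      rw [← h2, O.zE d m x hx] at hne
      obtain ⟨k, hk, hk1⟩ := O.supp d m x hx (right_ne_zero_of_mul hne)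
      rw [h0, mul_zero] at hk
      rw [Nat.le_zero.1 hk, zero_smul, add_zero] at hk1
      rw [hk1, sub_eq_self] at h1
      exact hχ0 h1
    exact LinearMap.congr_fun key h

/-- Root data for all vertices, with the values at the fixed points. -/
structure RD (𝒜 : ℕ × (Fin r → ℤ) → Submodule ℂ R) (N : ℤ)
    (b : (Fin r → ℤ) → ((Fin r → ℤ) →+ ℤ)) (al : (Fin r → ℤ) → ℂ)
    (E F : (Fin r → ℤ) → Derivation ℂ R R) (a : (Fin r → ℤ) → FP 𝒜 → ℤ) : Prop where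
  N0 : 0 < N
  rt : ∀ χ, Vx 𝒜 χ → Rt 𝒜 N χ (b χ) (al χ) (E χ) (F χ)
  root : ∀ χ, Vx 𝒜 χ → Root 𝒜 N χ (b χ) (toVF (E χ)) (toVF (F χ))
  av : ∀ χ, Vx 𝒜 χ → ∀ y : FP 𝒜, -(al χ + (b χ y.ν : ℂ)) = (N : ℂ) * a χ y
  ap : ∀ χ, Vx 𝒜 χ → ∀ y : FP 𝒜, ¬ y.Pi (-χ) → 0 ≤ a χ y
  an : ∀ χ, Vx 𝒜 χ → ∀ y : FP 𝒜, ¬ y.Pi χ → a χ y ≤ 0
  az : ∀ χ, Vx 𝒜 χ → ∀ y : FP 𝒜, a χ y = 0 → ¬ y.Pi χ ∧ ¬ y.Pi (-χ)

theorem no_opp_vx (H : H63X.Hyp 𝒜) {χ : Fin r → ℤ} (hχ : Vx 𝒜 χ) (y : FP 𝒜) (h1 : y.Pi χ)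
    (h2 : y.Pi (-χ)) : False :=
  H63X.no_opp H (H63X.sep_of_vx hχ) (fun z hz => H.mult z χ hχ hz) h1 h2

/-- A root field does not vanish where its weight is a tangent weight. -/
theorem not_valV_iff {y : FP 𝒜} {D : Derivation ℂ R R} :
    ValV y.q (toVF D) 0 ↔ ∀ h, y.q (D h) = 0 := by
  constructor
  · intro h x
    have h1 := h x
    rw [toVF_iK] at h1
    have h2 := Val.unique (Val.iK (q := y.q) (D x)) h1
    rw [h2]
    rfl
  · intro h x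
    rw [toVF_iK, LinearMap.zero_apply, ← h x]
    exact Val.iK _

theorem exists_RD (H : H63X.Hyp 𝒜) : ∃ (N : ℤ) (b : (Fin r → ℤ) → ((Fin r → ℤ) →+ ℤ))
    (al : (Fin r → ℤ) → ℂ) (E F : (Fin r → ℤ) → Derivation ℂ R R)
    (a : (Fin r → ℤ) → FP 𝒜 → ℤ), RD 𝒜 N b al E F a := by
  classical
  obtain ⟨N, b, E', F', hN, hr⟩ := H63X.exists_root_data H
  have hex : ∀ χ, ∃ E F : Derivation ℂ R R, Vx 𝒜 χ → toVF E = E' χ ∧ toVF F = F' χ := by
    intro χ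
    by_cases hχ : Vx 𝒜 χ
    · obtain ⟨E, hE⟩ := Glob.exists_der (hr χ hχ).globE
      obtain ⟨F, hF⟩ := Glob.exists_der (hr χ hχ).globF
      exact ⟨E, F, fun _ => ⟨hE, hF⟩⟩
    · exact ⟨0, 0, fun h => absurd h hχ⟩
  choose E F hEF using hex
  have hroot : ∀ χ, Vx 𝒜 χ → Root 𝒜 N χ (b χ) (toVF (E χ)) (toVF (F χ)) := fun χ hχ => by
    rw [(hEF χ hχ).1, (hEF χ hχ).2]
    exact hr χ hχ
  have hal : ∀ χ, ∃ al : ℂ, Vx 𝒜 χ → Rt 𝒜 N χ (b χ) al (E χ) (F χ) := by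
    intro χ
    by_cases hχ : Vx 𝒜 χ
    · have h1 := hroot χ hχ
      obtain ⟨al, hal⟩ := h1.br
      refine ⟨al, fun _ => ⟨h1.hvE.isHField, h1.hvF.isHField, h1.two, fun d m h hh => ?_⟩⟩
      have h2 := hal d m h hh
      rw [← toVF_lie, toVF_iK, ← iK_smul, ← iK_neg] at h2
      have h3 := iK_inj h2
      rwa [Derivation.commutator_apply] at h3
    · exact ⟨0, fun h => absurd h hχ⟩
  choose al hal using hal
  have hav : ∀ (χ : Fin r → ℤ) (y : FP 𝒜), ∃ a : ℤ, Vx 𝒜 χ →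
      -(al χ + (b χ y.ν : ℂ)) = (N : ℂ) * a ∧ (¬ y.Pi (-χ) → 0 ≤ a) ∧ (¬ y.Pi χ → a ≤ 0) ∧
      (a = 0 → ¬ y.Pi χ ∧ ¬ y.Pi (-χ)) := by
    intro χ y
    by_cases hχ : Vx 𝒜 χ
    · have hχ0 : χ ≠ 0 := fun h0 => by
        obtain ⟨-, l, hl, -⟩ := hχ
        rw [h0, map_zero] at hl
        exact lt_irrefl _ hl
      have hχ0' : -χ ≠ 0 := neg_ne_zero.2 hχ0
      have hpE : y.Pi χ → ∃ h, y.q (E χ h) ≠ 0 := fun hp => by
        by_contra hcon
        push Not at hcon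
        exact (hroot χ hχ).atE y hp (not_valV_iff.2 hcon)
      have hpF : y.Pi (-χ) → ∃ h, y.q (F χ h) ≠ 0 := fun hp => by
        by_contra hcon
        push Not at hcon
        exact (hroot χ hχ).atF y hp (not_valV_iff.2 hcon)
      by_cases hp : y.Pi (-χ)
      · -- the opposite root
        have hnp : ¬ y.Pi χ := fun h => no_opp_vx H hχ y h hp
        obtain ⟨n, hn, hn0⟩ := (hal χ hχ).neg.orb H hN y (val_zero y hχ0 (hal χ hχ).hE hnp)
        have hnpos : n ≠ 0 := by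
          intro h0
          obtain ⟨h, hh⟩ := hpF hp
          exact hh (hn0 h0 h)
        refine ⟨-(n : ℤ), fun _ => ⟨?_, fun h => absurd hp h, fun _ => by omega,
          fun h => by omega⟩⟩
        rw [AddMonoidHom.neg_apply] at hn
        push_cast at hn ⊢
        linear_combination -hn
      · obtain ⟨n, hn, hn0⟩ := (hal χ hχ).orb H hN y (val_zero y hχ0' (hal χ hχ).hF hp)
        refine ⟨(n : ℤ), fun _ => ⟨?_, fun _ => by omega, fun h => ?_, fun h => ⟨fun h1 => ?_, hp⟩⟩⟩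
        · push_cast
          exact hn
        · -- `E` vanishes at `y` as well
          obtain ⟨n', hn', -⟩ := (hal χ hχ).neg.orb H hN y (val_zero y hχ0 (hal χ hχ).hE h)
          rw [AddMonoidHom.neg_apply] at hn'
          push_cast at hn'
          have h2 : (N : ℂ) * ((n : ℂ) + n') = 0 := by linear_combination -hn - hn'
          rcases mul_eq_zero.1 h2 with h3 | h3
          · exact absurd h3 (by exact_mod_cast hN.ne')
          · have h4 : n + n' = 0 := by exact_mod_cast h3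
            omega
        · obtain ⟨h2, hh⟩ := hpE h1
          exact hh (hn0 (by omega) h2)
    · exact ⟨0, fun h => absurd h hχ⟩
  choose a ha using hav
  exact ⟨N, b, al, E, F, a,
    { N0 := hN
      rt := hal
      root := hroot
      av := fun χ hχ y => (ha χ y hχ).1
      ap := fun χ hχ y => (ha χ y hχ).2.1
      an := fun χ hχ y => (ha χ y hχ).2.2.1
      az := fun χ hχ y => (ha χ y hχ).2.2.2 }⟩

section
variable {N : ℤ} {b : (Fin r → ℤ) → ((Fin r → ℤ) →+ ℤ)} {al : (Fin r → ℤ) → ℂ}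
  {E F : (Fin r → ℤ) → Derivation ℂ R R} {a : (Fin r → ℤ) → FP 𝒜 → ℤ}

theorem RD.rs (H : H63X.Hyp 𝒜) (h : RD 𝒜 N b al E F a) :
    RS (H63X.VV H) {ω | Wt 𝒜 ω} b N := H63X.exists_RS H h.N0 h.root

omit [GradedAlgebra 𝒜] in
/-- The values at two points. -/
theorem RD.dif (h : RD 𝒜 N b al E F a) {χ : Fin r → ℤ} (hχ : Vx 𝒜 χ) (y y' : FP 𝒜) :
    b χ y'.ν - b χ y.ν = -(N * (a χ y' - a χ y)) := by
  have h1 := h.av χ hχ y
  have h2 := h.av χ hχ y'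
  have h3 : ((b χ y'.ν - b χ y.ν : ℤ) : ℂ) = ((-(N * (a χ y' - a χ y)) : ℤ) : ℂ) := by
    push_cast
    linear_combination h1 - h2
  exact_mod_cast h3

theorem RD.pos (H : H63X.Hyp 𝒜) (h : RD 𝒜 N b al E F a) {χ : Fin r → ℤ} (hχ : Vx 𝒜 χ)
    {y : FP 𝒜} (hp : y.Pi χ) : 0 < a χ y := by
  have h1 := h.ap χ hχ y (fun h2 => no_opp_vx H hχ y hp h2)
  rcases h1.lt_or_eq with h2 | h2
  · exact h2
  · exact absurd hp (h.az χ hχ y h2.symm).1

theorem RD.neg' (H : H63X.Hyp 𝒜) (h : RD 𝒜 N b al E F a) {χ : Fin r → ℤ} (hχ : Vx 𝒜 χ)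
    {y : FP 𝒜} (hp : y.Pi (-χ)) : a χ y < 0 := by
  have h1 := h.an χ hχ y (fun h2 => no_opp_vx H hχ y h2 hp)
  rcases h1.lt_or_eq with h2 | h2
  · exact h2
  · exact absurd hp (h.az χ hχ y h2).2

end

end Vale.Agent.P280.H60
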