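import Vale.Agent.P280.H60.Lem
import Vale.Agent.P280.H690.A1

/-! P280, T7, helper60, END: the negative weights of `z`. -/

open DirectSum Vale.Agent.P280.T Vale.Agent.P280.H127

namespace Vale.Agent.P280.H60

open Vale.Agent.P280.N Vale.Agent.P280.H490 Vale.Agent.P280.H143
open Vale.Agent.P280.N.H989

variable {r : ℕ} {R : Type} [CommRing R] [IsDomain R] [Algebra ℂ R]
  {𝒜 : ℕ × (Fin r → ℤ) → Submodule ℂ R} [GradedAlgebra 𝒜]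
  {N : ℤ} {b : (Fin r → ℤ) → ((Fin r → ℤ) →+ ℤ)} {al : (Fin r → ℤ) → ℂ}
  {E F : (Fin r → ℤ) → Derivation ℂ R R} {a : (Fin r → ℤ) → FP 𝒜 → ℤ}

omit [IsDomain R] [GradedAlgebra 𝒜] in
theorem bdy_of_vx {χ : Fin r → ℤ} (h : Vx 𝒜 χ) : Bdy 𝒜 χ := by
  obtain ⟨-, l, hl, hm⟩ := h
  refine ⟨l, hl, fun ω hω => ?_⟩
  by_cases h1 : ω = χ
  · rw [h1]
  · exact (hm ω hω h1).le

/-- A negative weight of `z` is interior. -/
theorem Ctx.int {z : FP 𝒜} {l : (Fin r → ℤ) →+ ℤ} (C : Ctx 𝒜 z l) {η : Fin r → ℤ}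
    (hη : z.Pi η) (hl : l η ≤ 0) : ¬ Bdy 𝒜 η := fun hb =>
  absurd (C.pos hη (C.bd z η hη hb).1) (by omega)

omit [IsDomain R] [GradedAlgebra 𝒜] in
theorem vx_ne {χ : Fin r → ℤ} (h : Vx 𝒜 χ) : χ ≠ 0 := by
  rintro rfl
  obtain ⟨-, l, hl, -⟩ := h
  rw [map_zero] at hl
  exact lt_irrefl _ hl

/-- The structure at a negative weight `η` of `z`. -/
theorem eta_step (H : H63X.Hyp 𝒜) (h : RD 𝒜 N b al E F a) {z : FP 𝒜}
    {l : (Fin r → ℤ) →+ ℤ} (C : Ctx 𝒜 z l)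
    (hs : ∀ ω, Wt 𝒜 ω → l ω ≤ 0 → ∑ χ ∈ H63X.VV H, a χ z * b χ ω ≤ 0) {η : Fin r → ℤ}
    (hη : z.Pi η) (hl : l η ≤ 0) :
    ∃ (n : ℕ) (χ : Fin n → Fin r → ℤ), KS (H63X.VV H) {ω | Wt 𝒜 ω} b N η χ ∧ 1 ≤ n ∧
      (∀ j, a (χ j) z = 0) ∧ (∀ j h, z.q (E (χ j) h) = 0) ∧ (∀ j h, z.q (F (χ j) h) = 0) ∧
      (∀ j, z.Pi (η - χ j)) ∧ One 𝒜 z η ∧ (∀ j, One 𝒜 z (η - χ j)) ∧
      ∀ j, Nf 𝒜 z (η - χ j) := by
  classical
  have hN := h.N0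
  have hRS := h.rs H
  have hVx : ∀ {ψ}, ψ ∈ H63X.VV H → Vx 𝒜 ψ := fun hψ => (H63X.mem_VV H).1 hψ
  have hint := C.int hη hl
  have hlV : η ∉ H63X.VV H := fun h1 => hint (bdy_of_vx (hVx h1))
  obtain ⟨n, χ, c⟩ := exists_KS hRS (lam := η) ⟨z, hη⟩ hlV (fun l' hl' => by
    by_contra hcon
    push Not at hcon
    exact hint ⟨l', hl', hcon⟩)
  have h0 : η ≠ 0 := H63X.ne_zero_of_pi H hη
  have hlow : ∀ (y : FP 𝒜) (n : ℕ), 1 ≤ n → z.ν = y.ν - n • η → y.Pi (-η) →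
      ∀ w, Lf 𝒜 y w := by
    intro y n hn hy _
    exact C.low y n η hn (by rw [hy]; abel) ⟨z, hη⟩ hl
  have hatE : ∀ {ψ}, Vx 𝒜 ψ → (∀ h, z.q (E ψ h) = 0) → ¬ z.Pi ψ := fun {ψ} hψ h1 hp =>
    (h.root ψ hψ).atE z hp (not_valV_iff.2 h1)
  have hatF : ∀ {ψ}, Vx 𝒜 ψ → (∀ h, z.q (F ψ h) = 0) → ¬ z.Pi (-ψ) := fun {ψ} hψ h1 hp =>
    (h.root ψ hψ).atF z hp (not_valV_iff.2 h1)
  -- (A1) for the roots `-χ j`
  have hA1 : ∀ j, (∀ h, z.q (E (χ j) h) = 0) → (∀ h, z.q (F (χ j) h) = 0) ∧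
      z.Pi (η - χ j) ∧ One 𝒜 z η ∧ One 𝒜 z (η - χ j) ∧ Nf 𝒜 z (η - χ j) := by
    intro j hE0
    have hv := hVx (c.mem j)
    have h1 := H690.a1 H hN (H63X.c03_vx_neg H hv) (h.rt _ hv).neg z hη
      (by rw [AddMonoidHom.neg_apply, c.bl]) hE0 (C.nf η ⟨z, hη⟩ hl) hlow
    rwa [← sub_eq_add_neg] at h1
  -- the signs
  have hsgn : ∀ j, ¬ z.Pi (-χ j) ∧ 0 ≤ a (χ j) z := by
    intro j
    have hv := hVx (c.mem j)
    rcases le_or_gt (l (χ j)) 0 with h1 | h1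
    · obtain ⟨h2, -⟩ := hA1 j (C.nf _ hv.1 h1 _ (h.rt _ hv).hE)
      exact ⟨hatF hv h2, h.ap _ hv z (hatF hv h2)⟩
    · have h2 := C.nf (-χ j) (H63X.c03_vx_neg H hv).1 (by rw [map_neg]; omega) _ (h.rt _ hv).hF
      exact ⟨hatF hv h2, h.ap _ hv z (hatF hv h2)⟩
  have hnn : ∀ ψ ∈ H63X.VV H, 0 ≤ a ψ z * b ψ η := by
    intro ψ hψ
    rcases c.vl ψ hψ with h1 | h1 | h1
    · rw [h1, mul_zero]
    · obtain ⟨j, rfl⟩ := c.full ψ hψ h1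
      rw [h1]
      exact mul_nonneg (hsgn j).2 hN.le
    · have h2 : b (-ψ) η = N := by rw [hRS.neg_b hψ ⟨z, hη⟩, h1, neg_neg]
      obtain ⟨j, hj⟩ := c.full (-ψ) (hRS.neg_mem hψ) h2
      have h3 := (hsgn j).1
      rw [← hj, neg_neg] at h3
      have h4 := h.an ψ (hVx hψ) z h3
      rw [h1]
      nlinarith
  have hz0 : ∀ j, a (χ j) z = 0 := by
    intro j
    have h1 : ∑ ψ ∈ H63X.VV H, a ψ z * b ψ η = 0 :=
      le_antisymm (hs η ⟨z, hη⟩ hl) (Finset.sum_nonneg hnn)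
    have h2 := (Finset.sum_eq_zero_iff_of_nonneg hnn).1 h1 (χ j) (c.mem j)
    rw [c.bl] at h2
    exact (mul_eq_zero.1 h2).resolve_right hN.ne'
  have hEz : ∀ j h, z.q (E (χ j) h) = 0 := fun j =>
    val_zero z (vx_ne (hVx (c.mem j))) (h.rt _ (hVx (c.mem j))).hE
      (h.az _ (hVx (c.mem j)) z (hz0 j)).1
  have j0 : Fin n := ⟨0, c.one_le h0⟩
  exact ⟨n, χ, c, c.one_le h0, hz0, hEz, fun j => (hA1 j (hEz j)).1, fun j => (hA1 j (hEz j)).2.1,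
    (hA1 j0 (hEz j0)).2.2.1, fun j => (hA1 j (hEz j)).2.2.2.1, fun j => (hA1 j (hEz j)).2.2.2.2⟩

/-- **Lemma L.** A tangent weight `x` of `z` not orthogonal to all `χ j` is liftable, if it is not
one of `η`, `η - χ j`. -/
theorem lf_of_ne (H : H63X.Hyp 𝒜) (h : RD 𝒜 N b al E F a) {z : FP 𝒜}
    {l : (Fin r → ℤ) →+ ℤ} (C : Ctx 𝒜 z l) {η χ : Fin r → ℤ} (hχ : Vx 𝒜 χ)
    (hη : z.Pi η) (hl : l η ≤ 0) (hbη : b χ η = N) (ha : a χ z = 0) {x : Fin r → ℤ}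
    (hx : z.Pi x) (hbx : b χ x ≠ 0) (h1 : x ≠ η) (h2 : x ≠ η - χ) : Lf 𝒜 z x := by
  have hN := h.N0
  obtain ⟨hn1, hn2⟩ := h.az χ hχ z ha
  have hroot := h.root χ hχ
  have hx1 : x ≠ χ := fun h3 => hn1 (h3 ▸ hx)
  have hx2 : x ≠ -χ := fun h3 => hn2 (h3 ▸ hx)
  have hE0 := val_zero z (vx_ne hχ) (h.rt χ hχ).hE hn1
  rcases (h.rs H).vals ((H63X.mem_VV H).2 hχ) (ω := x) ⟨z, hx⟩ hx1 hx2 with h3 | h3 | h3
  · exact absurd h3 hbx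
  · have h4 : Lf 𝒜 z (x + -χ) := by
      refine C.lf_neg H hN hroot hη hl hbη ?_ ?_
      · rw [← sub_eq_add_neg, map_sub, h3, hroot.two]
        ring
      · intro h5
        apply h1
        rw [← sub_eq_add_neg] at h5
        exact sub_left_injective h5
    refine lf_exch H hN (h.rt χ hχ).neg z hE0 ?_ ?_ h4
    · rw [AddMonoidHom.neg_apply, h3]
      exact (dvd_refl N).neg_right
    · rw [AddMonoidHom.neg_apply, h3]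
      omega
  · exact C.lf_neg H hN hroot hη hl hbη h3 h2

end Vale.Agent.P280.H60
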