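import Vale.Agent.P280.H60.EndA

/-! P280, T7, helper60, END, second form: descending induction on the norm
`sum (a χ p)^2`. It suffices to lift at the points `p` all whose tangent weights are positive for
`sum (a χ p) b_χ`, and all points of larger norm may be assumed liftable. -/

open DirectSum Vale.Agent.P280.T Vale.Agent.P280.H127

namespace Vale.Agent.P280.H60

open Vale.Agent.P280.N Vale.Agent.P280.H490 Vale.Agent.P280.H143
open Vale.Agent.P280.N.H989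

variable {r : ℕ} {R : Type} [CommRing R] [IsDomain R] [Algebra ℂ R]
  {𝒜 : ℕ × (Fin r → ℤ) → Submodule ℂ R} [GradedAlgebra 𝒜]
  {N : ℤ} {b : (Fin r → ℤ) → ((Fin r → ℤ) →+ ℤ)} {al : (Fin r → ℤ) → ℂ}
  {E F : (Fin r → ℤ) → Derivation ℂ R R} {a : (Fin r → ℤ) → FP 𝒜 → ℤ}

/-- The norm of a point. -/
noncomputable def nrm (H : H63X.Hyp 𝒜) (a : (Fin r → ℤ) → FP 𝒜 → ℤ) (y : FP 𝒜) : ℤ :=
  ∑ χ ∈ H63X.VV H, a χ y * a χ y

theorem RD.nrm_bdd (H : H63X.Hyp 𝒜) (h : RD 𝒜 N b al E F a) : ∃ C : ℤ, ∀ y, nrm H a y ≤ C := by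
  have h1 : ∀ χ : Fin r → ℤ, ∃ K : ℤ, χ ∈ H63X.VV H → 0 ≤ K ∧ ∀ y : FP 𝒜, |a χ y| ≤ K := by
    intro χ
    by_cases hχ : χ ∈ H63X.VV H
    · obtain ⟨K, hK⟩ := h.bound H ((H63X.mem_VV H).1 hχ)
      exact ⟨K, fun _ => hK⟩
    · exact ⟨0, fun h => absurd h hχ⟩
  choose K hK using h1
  refine ⟨∑ χ ∈ H63X.VV H, K χ * K χ, fun y => Finset.sum_le_sum fun χ hχ => ?_⟩
  obtain ⟨h0, h2⟩ := hK χ hχ
  have h3 := h2 y
  rw [← abs_mul_abs_self]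
  exact mul_self_le_mul_self (abs_nonneg _) h3

/-- The norm grows along a weight `w` with `sum (a χ z) b_χ w ≤ 0`. -/
theorem RD.nrm_lt (H : H63X.Hyp 𝒜) (h : RD 𝒜 N b al E F a) {y z : FP 𝒜} {n : ℕ} {w : Fin r → ℤ}
    (hn : 1 ≤ n) (hy : y.ν = z.ν + n • w) (hw : Wt 𝒜 w)
    (hlw : ∑ χ ∈ H63X.VV H, a χ z * b χ w ≤ 0) : nrm H a z < nrm H a y := by
  have hN := h.N0
  have hRS := h.rs H
  have hd : ∀ χ ∈ H63X.VV H, N * a χ y = N * a χ z - n * b χ w := by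
    intro χ hχ
    have h1 := h.dif ((H63X.mem_VV H).1 hχ) z y
    rw [hy, map_add, map_nsmul, nsmul_eq_mul] at h1
    linear_combination h1
  have h1 : N * N * nrm H a y = N * N * nrm H a z -
      2 * N * n * ∑ χ ∈ H63X.VV H, a χ z * b χ w +
      n * n * ∑ χ ∈ H63X.VV H, b χ w * b χ w := by
    rw [nrm, nrm, Finset.mul_sum, Finset.mul_sum, Finset.mul_sum, Finset.mul_sum,
      ← Finset.sum_sub_distrib, ← Finset.sum_add_distrib]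
    refine Finset.sum_congr rfl fun χ hχ => ?_
    have h2 := hd χ hχ
    linear_combination (N * a χ y + N * a χ z - n * b χ w) * h2
  have h2 : 0 < ∑ χ ∈ H63X.VV H, b χ w * b χ w := by
    by_contra hcon
    apply H63X.c03_wt_ne_zero H hw
    have h3 : ∑ χ ∈ H63X.VV H, b χ w * b χ w = 0 :=
      le_antisymm (not_lt.1 hcon) (Finset.sum_nonneg fun χ _ => mul_self_nonneg _)
    apply hRS.nd
    · intro χ hχ
      have h4 := (Finset.sum_eq_zero_iff_of_nonneg (fun χ _ => mul_self_nonneg (b χ w))).1 h3 χ hχ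
      exact mul_self_eq_zero.1 h4
    · intro g hg
      exact hRS.ext0 g hg hw
  have hn' : (1 : ℤ) ≤ n := by exact_mod_cast hn
  have h3 : 0 < n * n * ∑ χ ∈ H63X.VV H, b χ w * b χ w := by positivity
  have h4 : 0 ≤ -(2 * N * n * ∑ χ ∈ H63X.VV H, a χ z * b χ w) := by
    rw [← mul_neg]
    exact mul_nonneg (by positivity) (by omega)
  have h5 : N * N * nrm H a z < N * N * nrm H a y := by linarith
  exact lt_of_mul_lt_mul_left h5 (by positivity)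

/-- **END, by descending induction on the norm.** -/
theorem end_norm (H : H63X.Hyp 𝒜) (hmix : MixP 𝒜) (hBd : Bd 𝒜) (h : RD 𝒜 N b al E F a)
    (hS : ∀ p : FP 𝒜, (∀ ψ, p.Pi ψ → 0 < ∑ χ ∈ H63X.VV H, a χ p * b χ ψ) →
      (∀ y : FP 𝒜, nrm H a p < nrm H a y → ∀ ω, Lf 𝒜 y ω) → ∀ ω, Lf 𝒜 p ω)
    (z : FP 𝒜) (ω : Fin r → ℤ) : Lf 𝒜 z ω := by
  classical
  by_contra hcon
  obtain ⟨C, hC⟩ := h.nrm_bdd H
  obtain ⟨M, ⟨p, ⟨ω', hω'⟩, hpM⟩, hM⟩ := Int.exists_greatest_of_bdd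
    (P := fun n => ∃ y, (∃ ω, ¬ Lf 𝒜 y ω) ∧ nrm H a y = n) ⟨C, fun n ⟨y, _, hy⟩ => hy ▸ hC y⟩
    ⟨_, z, ⟨ω, hcon⟩, rfl⟩
  have hup : ∀ y : FP 𝒜, nrm H a p < nrm H a y → ∀ ω, Lf 𝒜 y ω := by
    intro y hy ω
    by_contra h1
    have h2 := hM _ ⟨y, ⟨ω, h1⟩, rfl⟩
    omega
  set l0 : (Fin r → ℤ) →+ ℤ := ∑ χ ∈ H63X.VV H, (a χ p) • b χ with hl0d
  have hl0v : ∀ ω, l0 ω = ∑ χ ∈ H63X.VV H, a χ p * b χ ω := by
    intro ω
    rw [hl0d, AddMonoidHom.finsetSum_apply]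
    exact Finset.sum_congr rfl fun χ _ => by rw [AddMonoidHom.smul_apply, smul_eq_mul]
  have Cx : Ctx 𝒜 p l0 := ctx_of H hBd hω' (fun y n w hn hy hw hlw =>
    hup y (h.nrm_lt H hn hy hw (by rw [← hl0v]; exact hlw)))
  by_cases hpos : ∀ ψ, p.Pi ψ → 0 < ∑ χ ∈ H63X.VV H, a χ p * b χ ψ
  · exact hω' (hS p hpos hup ω')
  · push Not at hpos
    obtain ⟨η, hη, hl⟩ := hpos
    exact no_eta H hmix h Cx (fun ω _ h1 => by rw [← hl0v]; exact h1) hη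
      (by rw [hl0v]; exact hl)

end Vale.Agent.P280.H60
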