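import Vale.Agent.P280.H60.Crit2
import Vale.Agent.P280.H60.EndB
import Vale.Agent.P280.H690.MixP
import Vale.Agent.P280.H475T.Bd4

/-! P280, T7, helper60: all tangent vectors are liftable, over the criterion and (Int). -/

open DirectSum Vale.Agent.P280.T Vale.Agent.P280.H127

namespace Vale.Agent.P280.H60

open Vale.Agent.P280.N Vale.Agent.P280.H143

variable {r : ℕ} {R : Type} [CommRing R] [IsDomain R] [Algebra ℂ R]
  {𝒜 : ℕ × (Fin r → ℤ) → Submodule ℂ R}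

/-- (Int): the interior weights are liftable at the sources. -/
def IntP (𝒜 : ℕ × (Fin r → ℤ) → Submodule ℂ R) : Prop :=
  ∀ l : (Fin r → ℤ) →+ ℤ, (∀ ω, Wt 𝒜 ω → l ω ≠ 0) → ∀ p : FP 𝒜, Pos l p →
    ∀ χ, p.Pi χ → ¬ Bdy 𝒜 χ → Lf 𝒜 p χ

variable [GradedAlgebra 𝒜]

theorem bd_of_data (H : H63X.Hyp 𝒜) (hdat : CritData 𝒜) : Bd 𝒜 :=
  H475T.bd_of_crit' H (crit_vx H hdat)

theorem src_of_int (hBd : Bd 𝒜) (hInt : IntP 𝒜) : Src 𝒜 := by
  intro l hl p hp χ
  by_cases h1 : p.Pi χ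
  · by_cases h2 : Bdy 𝒜 χ
    · exact (hBd p χ h1 h2).1
    · exact hInt l hl p hp χ h1 h2
  · exact lf_of_not_pi p h1

/-- **All tangent vectors at the fixed points are liftable**, over the criterion with data and
(Int). -/
theorem all_lf (H : H63X.Hyp 𝒜) (hdat : CritData 𝒜) (hInt : IntP 𝒜) (z : FP 𝒜)
    (ω : Fin r → ℤ) : Lf 𝒜 z ω :=
  end_of H (H690.mixP H) (bd_of_data H hdat) (src_of_int (bd_of_data H hdat) hInt) z ω

end Vale.Agent.P280.H60
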