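import Vale.Agent.P280.H749.Wall
import Vale.Agent.P280.N.A04

/-! P280, T7, helper60: transfer between the points of the cone over the same fixed point. -/

open DirectSum Vale.Agent.P280.T Vale.Agent.P280.H127

namespace Vale.Agent.P280.H60

open Vale.Agent.P280.N Vale.Agent.P280.H749

variable {r : ℕ} {R : Type} [CommRing R] [IsDomain R] [Algebra ℂ R]
  {𝒜 : ℕ × (Fin r → ℤ) → Submodule ℂ R} [GradedAlgebra 𝒜]

omit [IsDomain R] in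
/-- Tangent vectors at the two points correspond to each other. -/
theorem same_vec {p q : R →ₐ[ℂ] ℂ} (h : SamePoint 𝒜 p q) :
    ∃ σ τ : R →ₐ[ℂ] R, (∀ x, σ (τ x) = x) ∧ (∀ x, τ (σ x) = x) ∧ (∀ x, q x = p (σ x)) ∧
      (∀ (d : ℕ) (m : Fin r → ℤ), ∀ x ∈ 𝒜 (d, m), ∃ c : ℂ, c ≠ 0 ∧ σ x = c • x) ∧
      ∀ (d : ℕ) (m : Fin r → ℤ), ∀ x ∈ 𝒜 (d, m), ∃ c : ℂ, c ≠ 0 ∧ τ x = c • x := by
  obtain ⟨c, hc, h1⟩ := h
  obtain ⟨σ, hσ⟩ := A04.exists_scale (𝒜 := 𝒜) c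
  obtain ⟨τ, hτ⟩ := A04.exists_scale (𝒜 := 𝒜) c⁻¹
  have e1 : σ.comp τ = AlgHom.id ℂ R := by
    apply algHom_ext_graded 𝒜
    rintro ⟨d, m⟩ a ha
    rw [AlgHom.comp_apply, hτ d m a ha, map_smul, hσ d m a ha, smul_smul, ← mul_pow,
      inv_mul_cancel₀ hc, one_pow, one_smul]
    rfl
  have e2 : τ.comp σ = AlgHom.id ℂ R := by
    apply algHom_ext_graded 𝒜
    rintro ⟨d, m⟩ a ha
    rw [AlgHom.comp_apply, hσ d m a ha, map_smul, hτ d m a ha, smul_smul, ← mul_pow,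
      mul_inv_cancel₀ hc, one_pow, one_smul]
    rfl
  refine ⟨σ, τ, fun x => AlgHom.congr_fun e1 x, fun x => AlgHom.congr_fun e2 x, fun x => ?_,
    fun d m x hx => ⟨c ^ d, pow_ne_zero _ hc, hσ d m x hx⟩,
    fun d m x hx => ⟨c⁻¹ ^ d, pow_ne_zero _ (inv_ne_zero hc), hτ d m x hx⟩⟩
  have h2 := algHom_ext_graded 𝒜 (F := q) (G := p.comp σ) (fun i a ha => by
    rw [AlgHom.comp_apply, hσ i.1 i.2 a ha, map_smul, smul_eq_mul]
    exact h1 i.1 i.2 a ha)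
  rw [h2, AlgHom.comp_apply]

omit [IsDomain R] [GradedAlgebra 𝒜] in
/-- A tangent vector at `q = p ∘ σ` comes from one at `p`. -/
theorem pull_vec {p q : R →ₐ[ℂ] ℂ} {σ : R →ₐ[ℂ] R} (hq : ∀ x, q x = p (σ x))
    (hσ : ∀ (d : ℕ) (m : Fin r → ℤ), ∀ x ∈ 𝒜 (d, m), ∃ c : ℂ, c ≠ 0 ∧ σ x = c • x)
    {ν χ : Fin r → ℤ} {v : R →ₗ[ℂ] ℂ} (hv : IsTangent p v) (hw : HasWeight 𝒜 ν χ v) :
    IsTangent q (v.comp σ.toLinearMap) ∧ HasWeight 𝒜 ν χ (v.comp σ.toLinearMap) := by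
  refine ⟨fun a b => ?_, fun d m a ha h2 => ?_⟩
  · have h2 := hv (σ a) (σ b)
    rw [LinearMap.comp_apply, LinearMap.comp_apply, LinearMap.comp_apply, AlgHom.toLinearMap_apply,
      AlgHom.toLinearMap_apply, AlgHom.toLinearMap_apply, map_mul, h2, hq, hq]
  · obtain ⟨c, -, h3⟩ := hσ d m a ha
    rw [LinearMap.comp_apply, AlgHom.toLinearMap_apply, h3, map_smul] at h2
    exact hw d m a ha (fun h4 => h2 (by rw [h4, smul_zero]))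

omit [IsDomain R] in
theorem same_pi' {y y' : FP 𝒜} (h : SamePoint 𝒜 y.q y'.q) {χ : Fin r → ℤ} (hχ : y.Pi χ) :
    y'.Pi χ := by
  have h3 := A04.same_tw h hχ
  rw [A04.samePoint_nu h] at h3
  exact h3

omit [IsDomain R] in
theorem same_one {y y' : FP 𝒜} (h : SamePoint 𝒜 y.q y'.q) {χ : Fin r → ℤ}
    (h1 : ∀ v v' : R →ₗ[ℂ] ℂ, IsTangent y.q v → HasWeight 𝒜 y.ν χ v → IsTangent y.q v' →
      HasWeight 𝒜 y.ν χ v' → ∃ c c' : ℂ, (c ≠ 0 ∨ c' ≠ 0) ∧ ∀ h, c * v h + c' * v' h = 0) :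
    ∀ v v' : R →ₗ[ℂ] ℂ, IsTangent y'.q v → HasWeight 𝒜 y'.ν χ v → IsTangent y'.q v' →
      HasWeight 𝒜 y'.ν χ v' → ∃ c c' : ℂ, (c ≠ 0 ∨ c' ≠ 0) ∧ ∀ h, c * v h + c' * v' h = 0 := by
  intro v v' hv hw hv' hw'
  obtain ⟨σ, τ, hστ, hτσ, hq, hσ, hτ⟩ := same_vec h
  have hq' : ∀ x, y.q x = y'.q (τ x) := fun x => by rw [hq, hστ]
  rw [← A04.samePoint_nu h] at hw hw'
  obtain ⟨h2, h3⟩ := pull_vec hq' hτ hv hw
  obtain ⟨h4, h5⟩ := pull_vec hq' hτ hv' hw'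
  obtain ⟨c, c', hcc, h6⟩ := h1 _ _ h2 h3 h4 h5
  refine ⟨c, c', hcc, fun x => ?_⟩
  have h7 := h6 (σ x)
  rw [LinearMap.comp_apply, LinearMap.comp_apply, AlgHom.toLinearMap_apply, hτσ] at h7
  exact h7

omit [IsDomain R] in
theorem same_wl {c : (Fin r → ℤ) →+ ℤ} {y y' : FP 𝒜} {b : Fin r → ℤ}
    (h : SamePoint 𝒜 y.q y'.q) (hw : Wl c y b) : Wl c y' b where
  pi := same_pi' h hw.pi
  pos := hw.pos
  oth := fun ψ hψ hne => hw.oth ψ (same_pi' (A04.samePoint_symm h) hψ) hne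
  mult := same_one h hw.mult

omit [IsDomain R] in
theorem same_crd {y y' : FP 𝒜} (h : SamePoint 𝒜 y.q y'.q) {χ : Fin r → ℤ} {d : ℕ} {z : R}
    (hz : Crd y χ d z) : Crd y' χ d z := by
  obtain ⟨h1, h2, t, ht, htw, htz⟩ := hz
  obtain ⟨σ, τ, hστ, hτσ, hq, hσ, hτ⟩ := same_vec h
  obtain ⟨h3, h4⟩ := pull_vec hq hσ ht htw
  rw [A04.samePoint_nu h] at h1 h4
  obtain ⟨c, hc, h5⟩ := hσ _ _ _ h1
  refine ⟨h1, by rw [hq, h5, map_smul, h2, smul_zero], _, h3, h4, ?_⟩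
  rw [LinearMap.comp_apply, AlgHom.toLinearMap_apply, h5, map_smul, smul_eq_mul]
  exact mul_ne_zero hc htz

theorem same_rg' (hX : IsTorusManifold 𝒜) {y y' : FP 𝒜} (h : SamePoint 𝒜 y.q y'.q) {d : ℤ}
    {m : Fin r → ℤ} {x : FractionRing R} (hx : HK 𝒜 d m x) (hr : Rg y.q x) : Rg y'.q x := by
  obtain ⟨k, _, s, a, hs, _, _, h1, h2⟩ := hx.exists_den hX y.nv y.fix hr
  exact ⟨a, s, A04.samePoint_ne h hs (by rw [h1]; exact one_ne_zero), h2⟩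

theorem same_rgV' (hX : IsTorusManifold 𝒜) {y y' : FP 𝒜} (h : SamePoint 𝒜 y.q y'.q)
    {lam : Fin r → ℤ} {v : VF R} (hv : HV 𝒜 lam v) (hr : RgV y.q v) : RgV y'.q v := by
  intro a
  induction a using DirectSum.Decomposition.inductionOn 𝒜 with
  | zero =>
    rw [iK_zero, map_zero]
    exact Rg.zero
  | @homogeneous i a => exact same_rg' hX h (hv i.1 i.2 a a.2) (hr a)
  | add a b ha hb =>
    rw [iK_add, map_add]
    exact ha.add hb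

omit [IsDomain R] [GradedAlgebra 𝒜] in
theorem same_refl (p : R →ₐ[ℂ] ℂ) : SamePoint 𝒜 p p :=
  ⟨1, one_ne_zero, fun d m h _ => by rw [one_pow, one_mul]⟩

omit [IsDomain R] [GradedAlgebra 𝒜] in
theorem same_trans {p q s : R →ₐ[ℂ] ℂ} (h : SamePoint 𝒜 p q) (h' : SamePoint 𝒜 q s) :
    SamePoint 𝒜 p s := by
  obtain ⟨c, hc, h1⟩ := h
  obtain ⟨c', hc', h2⟩ := h'
  refine ⟨c' * c, mul_ne_zero hc' hc, fun d m x hx => ?_⟩
  rw [h2 d m x hx, h1 d m x hx, mul_pow, mul_assoc]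

/-- A representative of each fixed point. -/
theorem exists_rep (𝒜 : ℕ × (Fin r → ℤ) → Submodule ℂ R) : ∃ rep : FP 𝒜 → FP 𝒜,
    (∀ y, SamePoint 𝒜 y.q (rep y).q) ∧ ∀ y y', SamePoint 𝒜 y.q y'.q → rep y = rep y' := by
  let s : Setoid (FP 𝒜) :=
    { r := fun y y' => SamePoint 𝒜 y.q y'.q
      iseqv := ⟨fun y => same_refl y.q, fun h => A04.samePoint_symm h,
        fun h h' => same_trans h h'⟩ }
  refine ⟨fun y => (Quotient.mk s y).out, fun y => ?_, fun y y' h => ?_⟩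
  · exact A04.samePoint_symm (Quotient.mk_out (s := s) y)
  · have h1 : (Quotient.mk s y) = Quotient.mk s y' := Quotient.sound h
    change (Quotient.mk s y).out = (Quotient.mk s y').out
    rw [h1]

end Vale.Agent.P280.H60
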