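import Vale.Agent.P280.H60.Frame
import Vale.Agent.P280.H60.Same
import Vale.Agent.P280.H749.End
import Vale.Agent.P280.H143.Cross

/-! P280, T7, helper60, FRAME (d): the lifting criterion from its version with data at the
walls. -/

open DirectSum Vale.Agent.P280.T Vale.Agent.P280.H127

namespace Vale.Agent.P280.H60

open Vale.Agent.P280.N Vale.Agent.P280.H749 Vale.Agent.P280.H143

variable {r : ℕ} {R : Type} [CommRing R] [IsDomain R] [Algebra ℂ R]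
  {𝒜 : ℕ × (Fin r → ℤ) → Submodule ℂ R}

/-- The criterion with data at the walls. -/
def CritData (𝒜 : ℕ × (Fin r → ℤ) → Submodule ℂ R) : Prop :=
  ∀ (c : (Fin r → ℤ) →+ ℤ), (∀ μ, Wt 𝒜 μ → c μ ≠ 0) → (∃ μ, Wt 𝒜 μ) →
  ∀ p : FP 𝒜, Pos c p → ∀ (χ : Fin r → ℤ) (ι : Type) [Fintype ι] (w : ι → Fin r → ℤ),
  Function.Injective w → ∀ E : ι → Derivation ℂ R R, (∀ i, H93.IsHField 𝒜 (w i) (E i)) →
  (∀ i, c χ < c (w i)) → ∀ v : VF R, HV 𝒜 χ v → RgV p.q v →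
  ∀ g : FP 𝒜 → ι → FractionRing R, (∀ y b, Wl c y b → ∀ i, HK 𝒜 0 (w i - χ) (g y i)) →
  (∀ y b, Wl c y b → ∀ i d z, Crd y (-b) d z → ∃ k : ℕ, Rg y.q (iK z ^ k * g y i)) →
  (∀ y b y', Wl c y b → SamePoint 𝒜 y.q y'.q → ∀ i, Rg y.q (g y i - g y' i)) →
  (∀ y b, Wl c y b → RgV y.q (v - ∑ i, g y i • toVF (E i))) →
  (∀ (z : FP 𝒜) (b b' : Fin r → ℤ), z.Pi (-b) → z.Pi (-b') → 0 < c b → 0 < c b' →
    (∀ ψ, z.Pi ψ → ψ ≠ -b → ψ ≠ -b' → 0 < c ψ) → (b ≠ b' → One 𝒜 z (-b) ∧ One 𝒜 z (-b')) →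
    ∀ i, (∃ h, z.q (E i h) ≠ 0) ∨ ∀ (k k' : ℕ) (M : List (Fin r → ℤ)), 1 ≤ k → 1 ≤ k' →
      (∀ μ ∈ M, z.Pi μ ∧ 0 < c μ) → w i ≠ χ + k • b + k' • b' + M.sum) →
  ∃ x : ι → FractionRing R, (∀ i, HK 𝒜 0 (w i - χ) (x i)) ∧ (∀ i, Rg p.q (x i)) ∧
    (∀ y b, Wl c y b → ∀ i, Rg y.q (x i - g y i)) ∧ Glob (v - ∑ i, x i • toVF (E i))

variable [GradedAlgebra 𝒜]

/-- A field regular at the source has at a wall only poles along the wall. -/
theorem pole_wall (H : H63X.Hyp 𝒜) {c : (Fin r → ℤ) →+ ℤ} (hc : ∀ μ, Wt 𝒜 μ → c μ ≠ 0)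
    {p : FP 𝒜} (hp : Pos c p) {χ : Fin r → ℤ} {v : VF R} (hv : HV 𝒜 χ v) (hr : RgV p.q v)
    {y : FP 𝒜} {b : Fin r → ℤ} (W : Wl c y b) {dz : ℕ} {z : R} (hz : Crd y (-b) dz z) :
    ∃ k : ℕ, RgV y.q (iK z ^ k • v) := by
  obtain ⟨p', n, φ, hφ⟩ := exists_curve_pi H y W.pi
  have hp' := W.pos_end H hφ
  have hs := H63X.pos_unique H c hc hp hp'
  exact W.pole H.hX hφ hv (same_rgV' H.hX hs hv hr) hz

/-- The poles do not depend on the coordinate. -/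
theorem pole_crd (H : H63X.Hyp 𝒜) {c : (Fin r → ℤ) →+ ℤ} {y : FP 𝒜} {b : Fin r → ℤ}
    (W : Wl c y b) {d d' : ℕ} {z z' : R} (hz : Crd y (-b) d z) (hz' : Crd y (-b) d' z')
    {x : FractionRing R} {k : ℕ} (hk : Rg y.q (iK z ^ k * x)) : Rg y.q (iK z' ^ k * x) := by
  have h1 : Rg y.q ((iK z)⁻¹ * iK z') := by
    refine div_crd H.hX y c (fun ψ h1 h2 => (W.oth ψ h1 h2).le) ?_ hz W.mult (HK.ofR hz'.1)
      (Rg.iK _) ?_
    · rw [map_neg]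
      have := W.pos
      omega
    · rw [map_add, map_nsmul, nsmul_eq_mul, map_neg]
      have := W.pos
      linarith
  have hz0 : iK z ≠ 0 := iK_ne_zero (crd_ne_zero hz)
  have h2 : iK z' ^ k * x = ((iK z)⁻¹ * iK z') ^ k * (iK z ^ k * x) := by
    rw [mul_pow, inv_pow]
    field_simp
  rw [h2]
  have h3 : ∀ k : ℕ, Rg y.q (((iK z)⁻¹ * iK z') ^ k) := by
    intro k
    induction k with
    | zero =>
      rw [pow_zero, ← (map_one (algebraMap R (FractionRing R)))]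
      exact Rg.iK 1
    | succ k ih =>
      rw [pow_succ]
      exact ih.mul h1
  exact (h3 k).mul hk

/-- The direction of a wall is unique. -/
theorem wl_unique {c : (Fin r → ℤ) →+ ℤ} {y : FP 𝒜} {b b' : Fin r → ℤ} (W : Wl c y b)
    (W' : Wl c y b') : b = b' := by
  by_contra hne
  have h1 := W.oth (-b') W'.pi (fun h => hne (neg_injective h).symm)
  rw [map_neg] at h1
  have := W'.pos
  omega

/-- **FRAME (d).** The lifting criterion. -/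
theorem crit_of_data (H : H63X.Hyp 𝒜) (hdat : CritData 𝒜) {c : (Fin r → ℤ) →+ ℤ}
    (hc : ∀ μ, Wt 𝒜 μ → c μ ≠ 0) {p : FP 𝒜} (hp : Pos c p) {χ : Fin r → ℤ} {ι : Type} [Fintype ι]
    (w : ι → Fin r → ℤ) (hinj : Function.Injective w) (E : ι → Derivation ℂ R R)
    (hE : ∀ i, H93.IsHField 𝒜 (w i) (E i)) (hcw : ∀ i, c χ < c (w i))
    (hat : ∀ (y : FP 𝒜) (i : ι), y.Pi (w i) → (∃ h, y.q (E i h) ≠ 0) ∧ One 𝒜 y (w i))
    (C2 : ∀ (y : FP 𝒜) (b : Fin r → ℤ), Wl c y b → ∀ ω, y.Pi ω →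
      ∀ (k : ℕ) (M : List (Fin r → ℤ)), 1 ≤ k → (∀ μ ∈ M, y.Pi μ ∧ 0 < c μ) →
      ω = χ + k • b + M.sum → ∃ j, ω = w j)
    (C3 : ∀ (z : FP 𝒜) (b b' : Fin r → ℤ), z.Pi (-b) → z.Pi (-b') → 0 < c b → 0 < c b' →
      (∀ ψ, z.Pi ψ → ψ ≠ -b → ψ ≠ -b' → 0 < c ψ) → (b ≠ b' → One 𝒜 z (-b) ∧ One 𝒜 z (-b')) →
      ∀ i, (∃ h, z.q (E i h) ≠ 0) ∨ ∀ (k k' : ℕ) (M : List (Fin r → ℤ)), 1 ≤ k → 1 ≤ k' →
        (∀ μ ∈ M, z.Pi μ ∧ 0 < c μ) → w i ≠ χ + k • b + k' • b' + M.sum) :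
    Lf 𝒜 p χ := by
  classical
  by_cases hPi : p.Pi χ
  swap
  · exact lf_of_not_pi p hPi
  have hχ : 0 < c χ := lt_of_le_of_ne (hp χ hPi) (hc χ ⟨p, hPi⟩).symm
  intro t ht htw
  obtain ⟨v, hv, hvt⟩ := H749.locv H.hX p ht htw
  have hvr : RgV p.q v := fun h => (hvt h).rg
  -- the polar parts at the walls
  have hex : ∀ y : FP 𝒜, ∃ g : ι → FractionRing R, ∀ b, Wl c y b →
      (∀ i, HK 𝒜 0 (w i - χ) (g i)) ∧
      (∀ i d z, Crd y (-b) d z → ∃ k : ℕ, Rg y.q (iK z ^ k * g i)) ∧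
      RgV y.q (v - ∑ i, g i • toVF (E i)) := by
    intro y
    by_cases hy : ∃ b, Wl c y b
    · obtain ⟨b, W⟩ := hy
      obtain ⟨n, ψ, du, u, hpi, hu, -⟩ := H63X.coords H y
      obtain ⟨i0, hi0⟩ := (hpi _).1 W.pi
      have hz : Crd y (-b) (du i0) (u i0) := hi0 ▸ hu i0
      obtain ⟨k, hk⟩ := pole_wall H hc hp hv hvr W hz
      obtain ⟨g, hg1, -, hg3, hg4⟩ := frame H W hv hz hk hχ w hinj E hE (fun i => hat y i)
        (C2 y b W)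
      refine ⟨g, fun b' W' => ?_⟩
      obtain rfl := wl_unique W W'
      refine ⟨hg1, fun i d z hz' => ?_, hg4⟩
      obtain ⟨k', hk'⟩ := hg3 i
      exact ⟨k', pole_crd H W hz hz' hk'⟩
    · exact ⟨0, fun b hb => absurd ⟨b, hb⟩ hy⟩
  choose g hg using hex
  obtain ⟨rep, hrep, hrep'⟩ := exists_rep 𝒜
  have hEv : ∀ i, HV 𝒜 (w i) (toVF (E i)) := fun i => hv_toVF (hE i)
  obtain ⟨x, hx1, hx2, -, hx4⟩ := hdat c hc ⟨χ, p, hPi⟩ p hp χ ι w hinj E hE hcw v hv hvr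
    (fun y => g (rep y)) (fun y b W i => (hg (rep y) b (same_wl (hrep y) W)).1 i)
    (fun y b W i d z hz => by
      obtain ⟨k, hk⟩ := (hg (rep y) b (same_wl (hrep y) W)).2.1 i d z (same_crd (hrep y) hz)
      refine ⟨k, ?_⟩
      have h1 : HK 𝒜 ((k * d : ℕ) : ℤ) (k • (d • y.ν + -b)) (iK z ^ k) := by
        rw [← iK_pow]
        have h2 := SetLike.pow_mem_graded k hz.1
        rw [Prod.smul_mk, smul_eq_mul] at h2
        exact HK.ofR h2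
      exact same_rg' H.hX (A04.samePoint_symm (hrep y))
        (h1.mul ((hg (rep y) b (same_wl (hrep y) W)).1 i)) hk)
    (fun y b y' W h i => by
      beta_reduce
      rw [hrep' y y' h, sub_self]
      exact Rg.zero)
    (fun y b W => by
      refine same_rgV' H.hX (A04.samePoint_symm (hrep y)) (lam := χ) ?_
        (hg (rep y) b (same_wl (hrep y) W)).2.2
      refine hv.sub (HV.sum _ fun i _ => ?_)
      exact (((hEv i).smul ((hg (rep y) b (same_wl (hrep y) W)).1 i))).cast (by abel))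
    C3
  have hV : HV 𝒜 χ (v - ∑ i, x i • toVF (E i)) :=
    hv.sub (HV.sum _ fun i _ => ((hEv i).smul (hx1 i)).cast (by abel))
  obtain ⟨D, hD', hD⟩ := Glob.exists_hder hx4 hV
  refine ⟨D, hD, fun h => ?_⟩
  have hx0 : ∀ i, Val p.q (x i) 0 := by
    intro i
    obtain ⟨e, he⟩ := (hx2 i).val
    by_cases h0 : e = 0
    · rwa [h0] at he
    · exfalso
      have h1 := (hx1 i).weight H.hX p.nv p.fix he h0
      rw [zero_smul, sub_eq_zero] at h1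
      exact absurd (hcw i) (by rw [h1]; exact lt_irrefl _)
  have h1 : Val p.q ((v - ∑ i, x i • toVF (E i)) (iK h)) (t h - ∑ i, 0 * p.q (E i h)) := by
    rw [Derivation.sub_apply, sum_smul_apply]
    refine (hvt h).sub (Val.sum _ fun i _ => ?_)
    exact (hx0 i).mul (by rw [toVF_iK]; exact Val.iK _)
  rw [← hD', toVF_iK] at h1
  have h2 := (Val.iK (q := p.q) (D h)).unique h1
  simpa using h2

end Vale.Agent.P280.H60
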