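import Vale.Agent.P280.H143.F2
import Vale.Agent.P280.H63X.Chain
import Vale.Agent.P280.H63X.P1
import Vale.Agent.P280.H63X.NL
import Vale.Agent.P280.H224.Exch

/-! P280, T7, helper60, END: definitions (root data as derivations), signs of the roots at the
fixed points. -/

open DirectSum Vale.Agent.P280.T Vale.Agent.P280.H127

namespace Vale.Agent.P280.H60

open Vale.Agent.P280.N Vale.Agent.P280.H490 Vale.Agent.P280.H143

variable {r : ℕ} {R : Type} [CommRing R] [IsDomain R] [Algebra ℂ R]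
  {𝒜 : ℕ × (Fin r → ℤ) → Submodule ℂ R} [GradedAlgebra 𝒜]

/-- The `sl2` of a vertex `χ`, as derivations of `R`. -/
structure Rt (𝒜 : ℕ × (Fin r → ℤ) → Submodule ℂ R) (N : ℤ) (χ : Fin r → ℤ)
    (β : (Fin r → ℤ) →+ ℤ) (α : ℂ) (E F : Derivation ℂ R R) : Prop where
  hE : H93.IsHField 𝒜 χ E
  hF : H93.IsHField 𝒜 (-χ) F
  two : β χ = 2 * N
  br : ∀ d m, ∀ h ∈ 𝒜 (d, m), E (F h) - F (E h) = -(((d : ℂ) * α + (β m : ℂ)) • h)

/-- Multiplicity at most one of the weight `χ` at `y`. -/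
def One (𝒜 : ℕ × (Fin r → ℤ) → Submodule ℂ R) (y : FP 𝒜) (χ : Fin r → ℤ) : Prop :=
  ∀ v v' : R →ₗ[ℂ] ℂ, IsTangent y.q v → HasWeight 𝒜 y.ν χ v → IsTangent y.q v' →
    HasWeight 𝒜 y.ν χ v' → ∃ c c' : ℂ, (c ≠ 0 ∨ c' ≠ 0) ∧ ∀ h, c * v h + c' * v' h = 0

/-- `χ` is on the boundary of the hull of the weights. -/
def Bdy (𝒜 : ℕ × (Fin r → ℤ) → Submodule ℂ R) (χ : Fin r → ℤ) : Prop :=
  ∃ l : (Fin r → ℤ) →+ ℤ, 0 < l χ ∧ ∀ ω, Wt 𝒜 ω → l ω ≤ l χ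

/-- The boundary weights are liftable and of multiplicity one at every fixed point. -/
def Bd (𝒜 : ℕ × (Fin r → ℤ) → Submodule ℂ R) : Prop :=
  ∀ (y : FP 𝒜) (χ : Fin r → ℤ), y.Pi χ → Bdy 𝒜 χ → Lf 𝒜 y χ ∧ One 𝒜 y χ

/-- The tangent vectors at the sources are liftable. -/
def Src (𝒜 : ℕ × (Fin r → ℤ) → Submodule ℂ R) : Prop :=
  ∀ l : (Fin r → ℤ) →+ ℤ, (∀ ω, Wt 𝒜 ω → l ω ≠ 0) → ∀ p : FP 𝒜, Pos l p → ∀ χ, Lf 𝒜 p χ

/-- All fields of weight `χ` vanish at `z`. -/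
def Nf (𝒜 : ℕ × (Fin r → ℤ) → Submodule ℂ R) (z : FP 𝒜) (χ : Fin r → ℤ) : Prop :=
  ∀ D : Derivation ℂ R R, H93.IsHField 𝒜 χ D → ∀ h, z.q (D h) = 0

omit [IsDomain R] in
/-- A field of weight `χ` whose value at `y` is not zero. -/
theorem pi_of_val (y : FP 𝒜) {χ : Fin r → ℤ} (hχ : χ ≠ 0) {D : Derivation ℂ R R}
    (hD : H93.IsHField 𝒜 χ D) (h : ∃ x, y.q (D x) ≠ 0) : y.Pi χ := by
  refine tangentWeight_of_ne y.fix hχ (H224.isTangent_value y.q D) (H224.hasWeight_value y.fix hD) ?_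
  intro h0
  obtain ⟨x, hx⟩ := h
  exact hx (LinearMap.congr_fun h0 x)

omit [IsDomain R] in
theorem val_zero (y : FP 𝒜) {χ : Fin r → ℤ} (hχ : χ ≠ 0) {D : Derivation ℂ R R}
    (hD : H93.IsHField 𝒜 χ D) (h : ¬ y.Pi χ) (x : R) : y.q (D x) = 0 := by
  by_contra hne
  exact h (pi_of_val y hχ hD ⟨x, hne⟩)

omit [IsDomain R] [GradedAlgebra 𝒜] in
/-- The opposite root. -/
theorem Rt.neg {N : ℤ} {χ : Fin r → ℤ} {β : (Fin r → ℤ) →+ ℤ} {α : ℂ} {E F : Derivation ℂ R R}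
    (h : Rt 𝒜 N χ β α E F) : Rt 𝒜 N (-χ) (-β) (-α) F E where
  hE := h.hF
  hF := by rw [neg_neg]; exact h.hE
  two := by rw [AddMonoidHom.neg_apply, map_neg, neg_neg, h.two]
  br d m x hx := by
    have h1 := h.br d m x hx
    rw [AddMonoidHom.neg_apply]
    push_cast
    have h2 : F (E x) - E (F x) = ((d : ℂ) * α + (β m : ℂ)) • x := by
      rw [← neg_inj, neg_sub, h1]
    rw [h2, mul_neg, ← neg_add, neg_smul, neg_neg]

end Vale.Agent.P280.H60
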