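import Vale.Agent.P280.H749.Loc
import Vale.Agent.P280.H749.Wall
import Vale.Agent.P280.H60.Rt
import Vale.Agent.P280.H900.Den

/-! P280, T7, helper60, FRAME: separation of the fixed points of the same character, divisibility at
a wall, polar parts of a field at a wall modulo global fields. -/

open DirectSum Vale.Agent.P280.T Vale.Agent.P280.H127

namespace Vale.Agent.P280.H60

open Vale.Agent.P280.N Vale.Agent.P280.H749

variable {r : ℕ} {R : Type} [CommRing R] [IsDomain R] [Algebra ℂ R]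
  {𝒜 : ℕ × (Fin r → ℤ) → Submodule ℂ R} [GradedAlgebra 𝒜]

/-- Functions vanishing at `z` vanish at the nearby fixed points with the same character. -/
theorem sep_one (H : H63X.Hyp 𝒜) (z : FP 𝒜) {h : R} (hh : h ∈ 𝒜 (1, z.ν)) (hz : z.q h = 0) :
    ∃ (k : ℕ) (s : R), s ∈ 𝒜 (k, k • z.ν) ∧ z.q s ≠ 0 ∧
      ∀ y : FP 𝒜, y.ν = z.ν → y.q s ≠ 0 → y.q h = 0 := by
  classical
  obtain ⟨n, χ, du, u, hpi, hu, hco⟩ := H63X.coords H z
  have hval : Val z.q (iK h) 0 := by rw [← hz]; exact Val.iK _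
  obtain ⟨x', hx', e⟩ := hco 1 z.ν (iK h) ((HK.ofR hh).cast (by simp) rfl) hval
  choose k k' s a hs ha hk hsq hsa using fun i => (hx' i).2.exists_den H.hX z.nv z.fix (hx' i).1
  refine ⟨∑ i, k i, ∏ i, s i, ?_, ?_, ?_⟩
  · have h1 := SetLike.prod_mem_graded (A := 𝒜) (fun i : Fin n => (k i, k i • z.ν)) s
      (fun i _ => hs i) (F := Finset.univ)
    have h2 : ∑ i, ((k i, k i • z.ν) : ℕ × (Fin r → ℤ)) = (∑ i, k i, (∑ i, k i) • z.ν) := by
      rw [Finset.sum_smul]
      ext1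
      · rw [Prod.fst_sum]
      · rw [Prod.snd_sum]
    rwa [h2] at h1
  · rw [map_prod]
    exact Finset.prod_ne_zero_iff.2 fun i _ => by rw [hsq]; exact one_ne_zero
  · intro y hy hys
    have h1 : (∏ i, s i) * h = ∑ i, u i * (a i * ∏ j ∈ Finset.univ.erase i, s j) := by
      apply iK_inj
      rw [iK_mul, e, Finset.mul_sum, iK_sum]
      refine Finset.sum_congr rfl fun i _ => ?_
      rw [iK_mul, iK_mul, ← hsa, ← Finset.mul_prod_erase _ s (Finset.mem_univ i), iK_mul]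
      ring
    have h2 : y.q (∏ i, s i) * y.q h = 0 := by
      rw [← map_mul, h1, map_sum]
      refine Finset.sum_eq_zero fun i _ => ?_
      rw [map_mul]
      have h3 : y.q (u i) = 0 := by
        by_contra hne
        have h4 := y.fix _ _ _ (hu i).1 hne
        rw [hy] at h4
        have h5 : z.Pi (χ i) := (hpi _).2 ⟨i, rfl⟩
        exact H63X.ne_zero_of_pi H h5 (add_eq_left.1 h4)
      rw [h3, zero_mul]
    exact (mul_eq_zero.1 h2).resolve_left hys

/-- **FRAME (a).** Separation of the fixed points of the same character. -/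
theorem sep (H : H63X.Hyp 𝒜) (z : FP 𝒜) : ∃ (k : ℕ) (s : R), 0 < k ∧ s ∈ 𝒜 (k, k • z.ν) ∧
    z.q s ≠ 0 ∧ ∀ y : FP 𝒜, y.ν = z.ν → y.q s ≠ 0 → SamePoint 𝒜 z.q y.q := by
  classical
  have := noeth H.hX
  obtain ⟨f, hf, hfz⟩ := exists_deg_one_ne H.hX.gen z.nv z.fix
  set S0 : Set R := {h | h ∈ 𝒜 (1, z.ν) ∧ z.q h = 0} with hS0
  obtain ⟨T, hTS, hT⟩ := (Submodule.fg_span_iff_fg_span_finset_subset (R := R) S0).1
    (IsNoetherian.noetherian _)
  have hex : ∀ h : R, ∃ (k : ℕ) (s : R), h ∈ S0 → s ∈ 𝒜 (k, k • z.ν) ∧ z.q s ≠ 0 ∧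
      ∀ y : FP 𝒜, y.ν = z.ν → y.q s ≠ 0 → y.q h = 0 := by
    intro h
    by_cases hh : h ∈ S0
    · obtain ⟨k, s, h1⟩ := sep_one H z hh.1 hh.2
      exact ⟨k, s, fun _ => h1⟩
    · exact ⟨0, 0, fun h1 => absurd h1 hh⟩
  choose k s hks using hex
  refine ⟨1 + ∑ h ∈ T, k h, f * ∏ h ∈ T, s h, by omega, ?_, ?_, ?_⟩
  · have h1 := SetLike.prod_mem_graded (A := 𝒜) (F := T) (fun h => (k h, k h • z.ν)) s
      (fun h hh => (hks h (hTS hh)).1)
    have h2 : ∑ h ∈ T, ((k h, k h • z.ν) : ℕ × (Fin r → ℤ)) =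
        (∑ h ∈ T, k h, (∑ h ∈ T, k h) • z.ν) := by
      rw [Finset.sum_smul]
      ext1
      · rw [Prod.fst_sum]
      · rw [Prod.snd_sum]
    rw [h2] at h1
    have h3 := SetLike.mul_mem_graded hf h1
    rw [add_smul, one_smul]
    exact h3
  · rw [map_mul, map_prod]
    exact mul_ne_zero hfz (Finset.prod_ne_zero_iff.2 fun h hh => (hks h (hTS hh)).2.1)
  · intro y hy hys
    rw [map_mul, map_prod] at hys
    have hyf : y.q f ≠ 0 := left_ne_zero_of_mul hys
    have hyT : ∀ h ∈ T, y.q h = 0 := fun h hh => (hks h (hTS hh)).2.2 y hy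
      (Finset.prod_ne_zero_iff.1 (right_ne_zero_of_mul hys) h hh)
    have hyS : ∀ h ∈ S0, y.q h = 0 := by
      intro h hh
      have h1 : h ∈ Submodule.span R (T : Set R) := hT ▸ Submodule.subset_span hh
      have h2 : Submodule.span R (T : Set R) ≤ RingHom.ker y.q :=
        Submodule.span_le.2 fun x hx => (RingHom.mem_ker).2 (hyT x hx)
      exact (RingHom.mem_ker).1 (h2 h1)
    set c : ℂ := y.q f * (z.q f)⁻¹ with hc
    obtain ⟨σ, hσ⟩ := A04.exists_scale (𝒜 := 𝒜) c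
    have heq : y.q = z.q.comp σ := by
      refine AlgHom.ext_of_adjoin_eq_top H.hX.gen ?_
      rintro h ⟨m, hh⟩
      rw [AlgHom.comp_apply, hσ 1 m h hh, pow_one, map_smul, smul_eq_mul]
      by_cases hm : m = z.ν
      · subst hm
        have h1 : h - (z.q h * (z.q f)⁻¹) • f ∈ S0 := by
          refine ⟨Submodule.sub_mem _ hh (Submodule.smul_mem _ _ hf), ?_⟩
          rw [map_sub, map_smul, smul_eq_mul, inv_mul_cancel_right₀ hfz, sub_self]
        have h2 := hyS _ h1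
        rw [map_sub, map_smul, smul_eq_mul, sub_eq_zero] at h2
        rw [h2, hc]
        ring
      · have h1 : ∀ x : FP 𝒜, x.ν = z.ν → x.q h = 0 := by
          intro x hx
          by_contra hne
          have h2 := x.fix 1 m h hh hne
          rw [one_smul, hx] at h2
          exact hm h2
        rw [h1 y hy, h1 z rfl, mul_zero]
    refine ⟨c, mul_ne_zero hyf (inv_ne_zero hfz), fun d m h hh => ?_⟩
    rw [heq, AlgHom.comp_apply, hσ d m h hh, map_smul, smul_eq_mul]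

/-- **FRAME (b).** A homogeneous function vanishing at a wall, of nonpositive weight, is divisible
by the equation of the wall. -/
theorem div_wall (H : H63X.Hyp 𝒜) {c : (Fin r → ℤ) →+ ℤ} {y : FP 𝒜} {b : Fin r → ℤ}
    (W : Wl c y b) {d : ℕ} {m : Fin r → ℤ} {h : R} (hh : h ∈ 𝒜 (d, m)) (hq : y.q h = 0)
    (hm : c m ≤ d * c y.ν) {dz : ℕ} {z : R} (hz : Crd y (-b) dz z) :
    Rg y.q ((iK z)⁻¹ * iK h) := by
  classical
  have hneg : c (-b) < 0 := by rw [map_neg]; have := W.pos; omega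
  have hdiv : ∀ {d : ℤ} {m : Fin r → ℤ} {x : FractionRing R}, HK 𝒜 d m x → Rg y.q x →
      c m < d * c y.ν → Rg y.q ((iK z)⁻¹ * x) := fun hx hr hlt =>
    div_crd H.hX y c (fun ψ h1 h2 => (W.oth ψ h1 h2).le) hneg hz W.mult hx hr hlt
  obtain ⟨n, χ, du, u, hpi, hu, hco⟩ := H63X.coords H y
  have hval : Val y.q (iK h) 0 := by rw [← hq]; exact Val.iK _
  obtain ⟨x', hx', e⟩ := hco d m (iK h) (HK.ofR hh) hval
  rw [e, Finset.mul_sum]
  refine Rg.sum _ fun i _ => ?_
  by_cases hi : χ i = -b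
  · rw [← mul_assoc]
    refine Rg.mul (hdiv (HK.ofR (hu i).1) (Rg.iK _) ?_) (hx' i).1
    rw [map_add, map_nsmul, nsmul_eq_mul, hi]
    linarith
  · rw [mul_left_comm]
    refine Rg.mul (Rg.iK _) (hdiv (hx' i).2 (hx' i).1 ?_)
    have h1 := W.oth (χ i) ((hpi _).2 ⟨i, rfl⟩) hi
    rw [map_sub, map_add, map_nsmul, nsmul_eq_mul]
    linarith

/-- The index of a weight of multiplicity one is unique. -/
theorem uniq_of_one [IsNoetherianRing R] {y : FP 𝒜} {n : ℕ} {u : Fin n → R}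
    {wt : Fin n → Fin r → ℤ}
    (G : Gens (coarse 𝒜 (rl (AddMonoidHom.id (Fin r → ℤ)) y.ν)) y.q u wt)
    (hn : (n : ℕ∞) ≤ (mx y.q).height) {ω : Fin r → ℤ} (h1 : One 𝒜 y ω) {i j : Fin n}
    (hi : wt i = ω) (hj : wt j = ω) : i = j := by
  classical
  obtain ⟨v, hv1, hv2, hv3, -⟩ := G.exists_dual (fix_of_isFixed y.fix) hn
  have hwv : ∀ j, HasWeight 𝒜 y.ν (wt j) (v j) := fun j => weight_iff.mp (hv3 j)
  by_contra hij
  obtain ⟨a, a', hab, h2⟩ := h1 (v i) (v j) (hv1 i) (hi ▸ hwv i) (hv1 j) (hj ▸ hwv j)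
  have h3 := h2 (u i)
  have h4 := h2 (u j)
  rw [hv2, hv2, if_pos rfl, if_neg (Ne.symm hij), mul_one, mul_zero, add_zero] at h3
  rw [hv2, hv2, if_pos rfl, if_neg hij, mul_one, mul_zero, zero_add] at h4
  rcases hab with h5 | h5
  · exact h5 h3
  · exact h5 h4

omit [IsDomain R] in
theorem field_coarse {ν χ : Fin r → ℤ} {D : Derivation ℂ R R} (hD : H93.IsHField 𝒜 χ D)
    (κ : Fin r → ℤ) (x : R) (hx : x ∈ coarse 𝒜 (rl (AddMonoidHom.id (Fin r → ℤ)) ν) κ) :
    D x ∈ coarse 𝒜 (rl (AddMonoidHom.id (Fin r → ℤ)) ν) (κ - χ) := by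
  refine coarse_induction (P := fun x => D x ∈
    coarse 𝒜 (rl (AddMonoidHom.id (Fin r → ℤ)) ν) (κ - χ)) ?_ ?_ ?_ hx
  · rw [map_zero]
    exact Submodule.zero_mem _
  · intro a b ha hb
    rw [map_add]
    exact Submodule.add_mem _ ha hb
  · rintro ⟨d, m⟩ hi h hh
    refine mem_coarse (hD d m h hh) ?_
    rw [← hi, rl_apply, rl_apply, AddMonoidHom.id_apply, AddMonoidHom.id_apply]
    abel

/-- The restriction of a rational field to `R`. -/
noncomputable def rs (v : VF R) : Derivation ℂ R (FractionRing R) := v.compAlgebraMap R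

theorem rs_apply (v : VF R) (h : R) : rs v h = v (iK h) := rfl

theorem homD_rs {ν χ : Fin r → ℤ} {v : VF R} (hv : HV 𝒜 χ v) :
    H674.HomD (coarse 𝒜 (rl (AddMonoidHom.id (Fin r → ℤ)) ν)) χ (rs v) := by
  intro κ x hx
  refine coarse_induction (P := fun x =>
    H674.HomK (coarse 𝒜 (rl (AddMonoidHom.id (Fin r → ℤ)) ν)) (κ - χ) (rs v x)) ?_ ?_ ?_ hx
  · rw [map_zero]
    exact H674.HomK.zero
  · intro a b ha hb
    rw [map_add]
    exact ha.add hb
  · rintro ⟨d, m⟩ hi h hh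
    refine (A06.homK (hv d m h hh) ν).congr ?_
    rw [← hi, rl_apply, AddMonoidHom.id_apply, natCast_zsmul]
    abel

/-- Regular fields have a common denominator. -/
theorem reg_rs' (hX : IsTorusManifold 𝒜) {v : VF R} {g : R} {D : Derivation ℂ R R} (hg0 : g ≠ 0)
    (hD : ∀ h, iK (D h) = iK g * v (iK h)) {q : R →ₐ[ℂ] ℂ} (hq : RgV q v) :
    H899.Reg q (rs v) := by
  obtain ⟨s, hs, hs'⟩ := H900.exists_cond hX hq hD
  refine ⟨s, hs, fun h => ?_⟩
  obtain ⟨a, ha⟩ := hs' h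
  refine ⟨a, ?_⟩
  apply mul_left_cancel₀ (iK_ne_zero hg0)
  rw [← iK_mul, ← ha, iK_mul, hD]
  change iK g * (iK s * v (iK h)) = _
  ring

theorem ne_valV {q : R →ₐ[ℂ] ℂ} {D : Derivation ℂ R R} (h : ∃ x, q (D x) ≠ 0) :
    ¬ ValV q (toVF D) 0 := by
  intro h0
  obtain ⟨x, hx⟩ := h
  have h1 := h0 x
  rw [toVF_iK] at h1
  exact hx (Val.unique (Val.iK (q := q) (D x)) h1)

/-- **FRAME (c).** The polar part of a field at a wall, modulo global fields. -/
theorem frame (H : H63X.Hyp 𝒜) {c : (Fin r → ℤ) →+ ℤ} {y : FP 𝒜} {b : Fin r → ℤ}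
    (W : Wl c y b) {χ : Fin r → ℤ} {v : VF R} (hv : HV 𝒜 χ v) {dz : ℕ} {z : R}
    (hz : Crd y (-b) dz z) {k : ℕ} (hk : RgV y.q (iK z ^ k • v)) (hχ : 0 < c χ)
    {ι : Type} [Fintype ι] (w : ι → Fin r → ℤ) (hinj : Function.Injective w)
    (E : ι → Derivation ℂ R R) (hE : ∀ i, H93.IsHField 𝒜 (w i) (E i))
    (hat : ∀ i, y.Pi (w i) → (∃ h, y.q (E i h) ≠ 0) ∧ One 𝒜 y (w i))
    (C2 : ∀ ω, y.Pi ω → ∀ (k : ℕ) (M : List (Fin r → ℤ)), 1 ≤ k →
      (∀ μ ∈ M, y.Pi μ ∧ 0 < c μ) → ω = χ + k • b + M.sum → ∃ j, ω = w j) :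
    ∃ g : ι → FractionRing R, (∀ i, HK 𝒜 0 (w i - χ) (g i)) ∧ (∀ i, ¬ y.Pi (w i) → g i = 0) ∧
      (∀ i, ∃ k : ℕ, Rg y.q (iK z ^ k * g i)) ∧ RgV y.q (v - ∑ i, g i • toVF (E i)) := by
  classical
  have := noeth H.hX
  have := H.hX.finiteType
  have hF := fix_of_isFixed y.fix
  obtain ⟨n, u, wt, i0, G, hu, hw, hn, hwt⟩ := gens_crd H.hX y hz W.mult
  obtain ⟨v', hv1, hv2, hv3, hv4⟩ := G.exists_dual hF hn.le
  set J := {i : ι // y.Pi (w i)} with hJ
  have hinj' : Function.Injective fun i : J => w i.1 := fun i j h => Subtype.ext (hinj h)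
  choose idx hidx using fun i : J => wt_of_tangentWeight H.hX y.fix G hn i.2
  have huniq : ∀ (i : J) (l : Fin n), wt l = w i.1 → l = idx i := fun i l hl =>
    uniq_of_one G hn.le (hat i.1 i.2).2 hl (hidx i)
  -- the values of the fields
  have hval : ∀ (i : J) (l : Fin n), wt l ≠ w i.1 → y.q (E i.1 (u l)) = 0 := by
    intro i l hl
    exact hF (wt l - w i.1) (sub_ne_zero.2 hl) _ (field_coarse (hE i.1) _ _ (G.hom l))
  have hdiag : ∀ i : J, y.q (E i.1 (u (idx i))) ≠ 0 := by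
    intro i h0
    obtain ⟨h, hh⟩ := (hat i.1 i.2).1
    apply hh
    have h1 := hv4 (y.q.toLinearMap.comp (E i.1 : R →ₗ[ℂ] R)) (H224.isTangent_value y.q (E i.1))
    have h2 : y.q.toLinearMap.comp (E i.1 : R →ₗ[ℂ] R) = 0 := by
      rw [h1]
      refine Finset.sum_eq_zero fun l _ => ?_
      have h3 : (y.q.toLinearMap.comp (E i.1 : R →ₗ[ℂ] R)) (u l) = 0 := by
        by_cases hl : wt l = w i.1
        · rw [huniq i l hl]
          exact h0
        · exact hval i l hl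
      rw [h3, zero_smul]
    exact LinearMap.congr_fun h2 h
  have hdet : y.q (H93.dmat (fun i : J => E i.1) (u ∘ idx)).det ≠ 0 := by
    have h1 : y.q (H93.dmat (fun i : J => E i.1) (u ∘ idx)).det =
        ((H93.dmat (fun i : J => E i.1) (u ∘ idx)).map y.q).det := by
      rw [AlgHom.map_det]
      rfl
    have h2 : (H93.dmat (fun i : J => E i.1) (u ∘ idx)).map y.q =
        Matrix.diagonal fun i : J => y.q (E i.1 (u (idx i))) := by
      ext i j
      rw [Matrix.map_apply, Matrix.diagonal_apply]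
      change y.q (E i.1 (u (idx j))) = _
      by_cases hij : i = j
      · subst hij
        rw [if_pos rfl]
      · rw [if_neg hij]
        refine hval i (idx j) ?_
        rw [hidx]
        exact fun h => hij (hinj' h.symm)
    rw [h1, h2, Matrix.det_diagonal]
    exact Finset.prod_ne_zero_iff.2 fun i _ => hdiag i
  -- the pole lemma
  have hreg : H899.RegMod y.q (fun i : J => E i.1) (rs v) := by
    refine H674.regMod_of_pole hF G (χ := fun i : J => w i.1)
      (fun i κ x hx => field_coarse (hE i.1) κ x hx) idx hdet (θ := χ) (homD_rs hv) (i0 := i0)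
      (by rw [hu]; exact crd_ne_zero hz) ?_ ?_
    · obtain ⟨N, γ, g, D, hg, hg0, hD, -⟩ := H900.exists_den H.hX hv
      refine ⟨k, 0, ?_⟩
      have h1 : H899.Reg y.q (rs (iK z ^ k • v)) :=
        reg_rs' H.hX (D := z ^ k • D) hg0 (fun h => by
          rw [Derivation.smul_apply, smul_eq_mul, iK_mul, hD, iK_pow, Derivation.smul_apply,
            smul_eq_mul]
          ring) hk
      obtain ⟨s, hs, hs'⟩ := h1
      refine ⟨s, hs, fun h => ?_⟩
      obtain ⟨a, ha⟩ := hs' h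
      refine ⟨a, ?_⟩
      rw [← ha, H899.sb_apply, hu]
      simp only [Pi.zero_apply, zero_mul, Finset.sum_const_zero, sub_zero]
      rw [Derivation.smul_apply, rs_apply, rs_apply, Derivation.smul_apply, map_pow]
    · intro i hi k' mm hk' hmm h1
      rw [hw] at h1
      -- the sum of the weights of the monomial
      have hS : ∑ l, mm l • wt l ∈ AddSubmonoid.closure {μ | y.Pi μ ∧ 0 < c μ} := by
        refine AddSubmonoid.sum_mem _ fun l _ => ?_
        by_cases hl : l = i0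
        · rw [hl, hmm, zero_smul]
          exact AddSubmonoid.zero_mem _
        · by_cases h0 : wt l = 0
          · rw [h0, smul_zero]
            exact AddSubmonoid.zero_mem _
          · have h3 : wt l ∈ {μ | y.Pi μ ∧ 0 < c μ} :=
              ⟨(hwt l hl).2 h0, W.oth _ ((hwt l hl).2 h0) (hwt l hl).1⟩
            exact AddSubmonoid.nsmul_mem _ (AddSubmonoid.subset_closure h3) _
      have hS0 : 0 ≤ c (∑ l, mm l • wt l) := closure_nonneg (fun ψ hψ => hψ.2.le) hS
      obtain ⟨M, hM, hMs⟩ := AddSubmonoid.exists_list_of_mem_closure hS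
      have h2 : wt i = χ + k' • b + M.sum := by
        rw [hMs, ← h1, smul_neg]
        abel
      have h3 : 0 < c (wt i) := by
        rw [h2, hMs, map_add, map_add, map_nsmul, nsmul_eq_mul]
        have := W.pos
        have h4 : (1 : ℤ) ≤ k' := by exact_mod_cast hk'
        nlinarith
      have hii : i ≠ i0 := by
        intro h4
        rw [h4, hw, map_neg] at h3
        have := W.pos
        omega
      have hi0 : wt i ≠ 0 := by
        intro h4
        rw [h4, map_zero] at h3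
        exact lt_irrefl _ h3
      have hPi := (hwt i hii).2 hi0
      obtain ⟨j, hj⟩ := C2 (wt i) hPi k' M hk' hM h2
      exact hi ⟨⟨j, hj ▸ hPi⟩, (huniq ⟨j, hj ▸ hPi⟩ i hj).symm⟩
  have hRM : RM y.q (Set.range fun i : J => toVF (E i.1)) v := by
    obtain ⟨g, s, hs, hg⟩ := hreg
    refine rm_range.2 ⟨g, fun h => ?_⟩
    obtain ⟨a, ha⟩ := hg h
    refine ⟨a, s, hs, Eq.trans ?_ ha⟩
    rw [H899.sb_apply, Derivation.sub_apply, sum_smul_apply, rs_apply]
    congr 2
    exact Finset.sum_congr rfl fun i _ => by rw [toVF_iK]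
  have hrg : ∀ i : J, RgV y.q (toVF (E i.1)) := fun i => (toVF_glob (E i.1)).rgV
  have hne : ∀ i : J, ¬ ValV y.q (toVF (E i.1)) 0 := fun i => ne_valV (hat i.1 i.2).1
  obtain ⟨g, hg, hg1⟩ := exists_hnorm H.hX hrg (fun i => hv_toVF (hE i.1)) hinj' hne hv
  have hR := hg1.1 hRM
  have hsum : ∑ i : ι, (if h : y.Pi (w i) then g ⟨i, h⟩ else 0) • toVF (E i) =
      ∑ i : J, g i • toVF (E i.1) := by
    have h1 : ∑ i : ι, (if h : y.Pi (w i) then g ⟨i, h⟩ else 0) • toVF (E i) =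
        ∑ i ∈ Finset.univ.filter (fun i => y.Pi (w i)),
          (if h : y.Pi (w i) then g ⟨i, h⟩ else 0) • toVF (E i) := by
      symm
      refine Finset.sum_subset (Finset.subset_univ _) fun i _ hi => ?_
      rw [Finset.mem_filter] at hi
      rw [dif_neg (fun h => hi ⟨Finset.mem_univ _, h⟩), zero_smul]
    rw [h1, Finset.sum_subtype (Finset.univ.filter (fun i => y.Pi (w i)))
      (p := fun i => y.Pi (w i)) (fun i => by simp)]
    exact Finset.sum_congr rfl fun i _ => by rw [dif_pos i.2]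
  refine ⟨fun i => if h : y.Pi (w i) then g ⟨i, h⟩ else 0, fun i => ?_, fun i hi => ?_,
    fun i => ?_, ?_⟩
  · beta_reduce
    split_ifs with h
    · exact hg ⟨i, h⟩
    · exact HK.zero le_rfl
  · exact dif_neg hi
  · beta_reduce
    split_ifs with h
    · refine ⟨k, coeff_rg H.hX hrg (fun i => hv_toVF (hE i.1)) hinj' hne
        (g := fun i => iK z ^ k * g i) ?_ ⟨i, h⟩⟩
      have h1 : ∑ i : J, (iK z ^ k * g i) • toVF (E i.1) =
          iK z ^ k • v - iK z ^ k • (v - ∑ i, g i • toVF (E i.1)) := by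
        rw [smul_sub, sub_sub_cancel, Finset.smul_sum]
        exact Finset.sum_congr rfl fun i _ => by rw [smul_smul]
      rw [h1]
      refine hk.sub (RgV.smul ?_ hR)
      rw [← iK_pow]
      exact Rg.iK _
    · exact ⟨0, by rw [mul_zero]; exact Rg.zero⟩
  · rw [hsum]
    exact hR

end Vale.Agent.P280.H60
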