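import Vale.Agent.P280.H60.Crit
import Vale.Agent.P280.H475T.Crit
import Vale.Agent.P280.H475T.Step

/-! P280, T7, helper60: the criterion for vertices. -/

open DirectSum Vale.Agent.P280.T Vale.Agent.P280.H127

namespace Vale.Agent.P280.H60

open Vale.Agent.P280.N Vale.Agent.P280.H749 Vale.Agent.P280.H143

variable {r : ℕ} {R : Type} [CommRing R] [IsDomain R] [Algebra ℂ R]
  {𝒜 : ℕ × (Fin r → ℤ) → Submodule ℂ R} [GradedAlgebra 𝒜]

theorem crit_vx (H : H63X.Hyp 𝒜) (hdat : CritData 𝒜) : H475T.Crit 𝒜 := by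
  intro c hc p hp χ m w hinj hw hcw C2 C3
  choose E hE hEv using fun j => H475T.vx_der H (hw j)
  refine crit_of_data H hdat hc hp w hinj E hE hcw
    (fun y i hy => ⟨?_, H.mult y (w i) (hw i) hy⟩)
    (fun y b W ω hω k M hk hM h => C2 y b W.pi W.pos W.oth ω hω k M hk hM h) ?_
  · exact (hEv i).1 y hy
  · intro z b b' hb hb' hcb hcb' hoth _ i
    by_cases hz : z.Pi (w i)
    · exact Or.inl ((hEv i).1 z hz)
    · right
      exact fun k k' M hk hk' hM => C3 z b b' hb hb' hcb hcb' hoth i hz k k' M hk hk' hM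

end Vale.Agent.P280.H60
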