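import Vale.Agent.P280.H60.Cho
import Vale.Agent.P280.H143.X3
import Vale.Agent.P280.H63X.D02

/-! P280, T7, helper60, END: liftability at `z` from (F2) and from the `sl2`. -/

open DirectSum Vale.Agent.P280.T Vale.Agent.P280.H127

namespace Vale.Agent.P280.H60

open Vale.Agent.P280.N Vale.Agent.P280.H490 Vale.Agent.P280.H143
open Vale.Agent.P280.N.H989

variable {r : ℕ} {R : Type} [CommRing R] [IsDomain R] [Algebra ℂ R]
  {𝒜 : ℕ × (Fin r → ℤ) → Submodule ℂ R} [GradedAlgebra 𝒜]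

omit [IsDomain R] in
/-- The normalised root. -/
theorem Rt.norm {N : ℤ} (hN : 0 < N) {χ : Fin r → ℤ} {β : (Fin r → ℤ) →+ ℤ} {α : ℂ}
    {E F : Derivation ℂ R R} (hR : Rt 𝒜 N χ β α E F) :
    ∃ (bb : (Fin r → ℤ) →+ ℂ) (c : ℂ), (∀ ω, (N : ℂ) * bb ω = β ω) ∧ bb χ = 2 ∧
      H93.IsHField 𝒜 (-χ) ((N : ℂ)⁻¹ • F) ∧
      ∀ d m, ∀ h ∈ 𝒜 (d, m), E (((N : ℂ)⁻¹ • F) h) - ((N : ℂ)⁻¹ • F) (E h) =
        -(((d : ℂ) * c + bb m) • h) := by
  have hNC : (N : ℂ) ≠ 0 := by exact_mod_cast hN.ne'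
  let bb : (Fin r → ℤ) →+ ℂ :=
    (AddMonoidHom.mulLeft ((N : ℂ)⁻¹)).comp ((Int.castAddHom ℂ).comp β)
  have hbv : ∀ m, bb m = (N : ℂ)⁻¹ * (β m : ℂ) := fun m => rfl
  refine ⟨bb, (N : ℂ)⁻¹ * α, fun ω => ?_, ?_, ?_, ?_⟩
  · rw [hbv, mul_inv_cancel_left₀ hNC]
  · rw [hbv, hR.two]
    push_cast
    field_simp
  · intro d m h hh
    rw [Derivation.smul_apply]
    exact Submodule.smul_mem _ _ (hR.hF d m h hh)
  · intro d m h hh
    rw [Derivation.smul_apply, Derivation.smul_apply, E.map_smul, ← smul_sub, hR.br d m h hh,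
      smul_neg, smul_smul, hbv]
    congr 2
    ring

omit [GradedAlgebra 𝒜] in
/-- The opposite root. -/
theorem root_opp {N : ℤ} {χ : Fin r → ℤ} {β : (Fin r → ℤ) →+ ℤ} {E F : VF R}
    (h : Root 𝒜 N χ β E F) : Root 𝒜 N (-χ) (-β) F E where
  globE := h.globF
  globF := h.globE
  hvE := h.hvF
  hvF := by rw [neg_neg]; exact h.hvE
  two := by rw [AddMonoidHom.neg_apply, map_neg, neg_neg, h.two]
  br := by
    obtain ⟨α, hα⟩ := h.br
    refine ⟨-α, fun d m x hx => ?_⟩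
    have h1 := hα d m x hx
    rw [← lie_skew, Derivation.neg_apply, h1, neg_neg, AddMonoidHom.neg_apply]
    push_cast
    rw [mul_neg, ← neg_add, neg_smul, neg_neg]
  atE := h.atF
  atF := fun y hy => h.atE y (by rwa [neg_neg] at hy)
  int := fun ω hω => by rw [AddMonoidHom.neg_apply]; exact (h.int ω hω).neg_right
  bd := fun ω hω h1 h2 => by
    rw [AddMonoidHom.neg_apply, abs_neg]
    exact h.bd ω hω (by rwa [neg_neg] at h2) h1
  hull := fun l a hl μ hμ => by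
    have h1 := h.hull l a hl μ hμ
    rw [AddMonoidHom.neg_apply, map_neg]
    linarith

/-- If `F` vanishes at `z` and `β ω < 0`, liftability passes from `ω + χ` to `ω`. -/
theorem lf_exch (H : H63X.Hyp 𝒜) {N : ℤ} (hN : 0 < N) {χ : Fin r → ℤ}
    {β : (Fin r → ℤ) →+ ℤ} {α : ℂ} {E F : Derivation ℂ R R} (hR : Rt 𝒜 N χ β α E F) (z : FP 𝒜)
    (hF0 : ∀ h, z.q (F h) = 0) {ω : Fin r → ℤ} (hdvd : N ∣ β ω) (hneg : β ω < 0)
    (hL : Lf 𝒜 z (ω + χ)) : Lf 𝒜 z ω := by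
  have hNC : (N : ℂ) ≠ 0 := by exact_mod_cast hN.ne'
  obtain ⟨bb, c, hbb, hb2, hF', hEF⟩ := hR.norm hN
  obtain ⟨k, hk⟩ := hdvd
  have hbω : bb ω = (k : ℤ) := by
    have h1 := hbb ω
    rw [hk] at h1
    push_cast at h1
    exact mul_left_cancel₀ hNC h1
  have hkneg : k < 0 := by
    rw [hk] at hneg
    by_contra hcon
    push Not at hcon
    nlinarith
  intro t ht htw
  have hF0' : ∀ h, z.q (((N : ℂ)⁻¹ • F) h) = 0 := fun h => by
    rw [Derivation.smul_apply, map_smul, hF0, smul_zero]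
  obtain ⟨w, hw, hww, hwt⟩ := H224.exch_vec H.hX H.hN z.nv z.fix hR.hE hF' (c := c) hb2
    (fun d m h hh => by
      rw [Derivation.commutator_apply, ← neg_sub (E _), hEF d m h hh, neg_neg]
      congr 1
      ring) hF0' hbω hkneg ht htw
  obtain ⟨D, hD, hDw⟩ := hL w hw hww
  refine ⟨⁅D, (N : ℂ)⁻¹ • F⁆, ?_, fun x => ?_⟩
  · have h1 := hD.lie hF'
    rwa [add_neg_cancel_right] at h1
  · rw [Derivation.commutator_apply, map_sub, hF0', sub_zero, hDw, hwt]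
    rfl

/-- A field of weight `ω` with `β ω = 2 N`. -/
theorem field_two (H : H63X.Hyp 𝒜) {N : ℤ} (hN : 0 < N) {χ : Fin r → ℤ}
    {β : (Fin r → ℤ) →+ ℤ} {E F : VF R} (hr : Root 𝒜 N χ β E F) {ω : Fin r → ℤ}
    {D : Derivation ℂ R R} (hD : H93.IsHField 𝒜 ω D) (hne : D ≠ 0) (hω : β ω = 2 * N) : ω = χ := by
  refine H63X.D02.eq_of_field H (l := β) ?_ ?_ (toVF_glob D) (hv_toVF hD) ?_ ?_
  · rw [hr.two]; positivity
  · intro μ hμ hne
    rw [hr.two]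
    by_cases h1 : μ = -χ
    · rw [h1, map_neg, hr.two]; linarith
    · have := (abs_le.1 (hr.bd μ hμ hne h1)).2
      linarith
  · intro h0
    exact hne (toVF_inj (h0.trans (by
      apply vf_ext
      intro a
      rw [toVF_iK, Derivation.zero_apply, Derivation.zero_apply, iK_zero])))
  · rw [hω, hr.two]

/-- A nonzero field of weight `ω` has `β ω ≤ 2 N`. -/
theorem field_le (H : H63X.Hyp 𝒜) {N : ℤ} (hN : 0 < N) {χ : Fin r → ℤ}
    {β : (Fin r → ℤ) →+ ℤ} {E F : VF R} (hr : Root 𝒜 N χ β E F) {ω : Fin r → ℤ}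
    {D : Derivation ℂ R R} (hD : H93.IsHField 𝒜 ω D) (hne : D ≠ 0) : β ω ≤ 2 * N := by
  refine H63X.hull_field H β (a := 2 * N) (by positivity) ?_ (toVF_glob D) (hv_toVF hD) ?_
  · intro μ hμ
    by_cases h1 : μ = χ
    · rw [h1, hr.two]
    · by_cases h2 : μ = -χ
      · rw [h2, map_neg, hr.two]; linarith
      · have := (abs_le.1 (hr.bd μ hμ h1 h2)).2
        linarith
  · intro h0
    exact hne (toVF_inj (h0.trans (by
      apply vf_ext
      intro a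
      rw [toVF_iK, Derivation.zero_apply, Derivation.zero_apply, iK_zero])))

omit [GradedAlgebra 𝒜] in
theorem wt_le {N : ℤ} (hN : 0 < N) {χ : Fin r → ℤ}
    {β : (Fin r → ℤ) →+ ℤ} {E F : VF R} (hr : Root 𝒜 N χ β E F) {ω : Fin r → ℤ}
    (hω : Wt 𝒜 ω) : |β ω| ≤ 2 * N := by
  by_cases h1 : ω = χ
  · rw [h1, hr.two, abs_of_pos (by positivity)]
  · by_cases h2 : ω = -χ
    · rw [h2, map_neg, hr.two, abs_neg, abs_of_pos (by positivity)]
    · have := hr.bd ω hω h1 h2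
      linarith

variable {N : ℤ} {b : (Fin r → ℤ) → ((Fin r → ℤ) →+ ℤ)} {al : (Fin r → ℤ) → ℂ}
  {E F : (Fin r → ℤ) → Derivation ℂ R R} {a : (Fin r → ℤ) → FP 𝒜 → ℤ}

/-- The situation at the point `z`. -/
structure Ctx (𝒜 : ℕ × (Fin r → ℤ) → Submodule ℂ R) (z : FP 𝒜) (l : (Fin r → ℤ) →+ ℤ) : Prop where
  low : ∀ (y : FP 𝒜) (n : ℕ) (w : Fin r → ℤ), 1 ≤ n → y.ν = z.ν + n • w → Wt 𝒜 w → l w ≤ 0 →
    ∀ ω, Lf 𝒜 y ω
  nf : ∀ w, Wt 𝒜 w → l w ≤ 0 → Nf 𝒜 z w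
  bd : Bd 𝒜

/-- A liftable tangent weight of `z` is positive. -/
theorem Ctx.pos {z : FP 𝒜} {l : (Fin r → ℤ) →+ ℤ} (C : Ctx 𝒜 z l) {x : Fin r → ℤ}
    (hx : z.Pi x) (hL : Lf 𝒜 z x) : 0 < l x := by
  rcases le_or_gt (l x) 0 with h1 | h1
  · exfalso
    have hw : Wt 𝒜 x := ⟨z, hx⟩
    obtain ⟨t, ht, htw, hne⟩ := hx
    obtain ⟨D, hD, hDt⟩ := hL t ht htw
    obtain ⟨d, m, h, hh, h2⟩ := hne 0
    rw [← hDt, C.nf x hw h1 D hD] at h2
    simp at h2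
  · exact h1

/-- **(F2) with one root `χ` through `z`.** `η` is a negative weight of `z` with `β η = N`. A
weight `x ≠ η - χ` with `β x = -N` is liftable at `z`. -/
theorem Ctx.lf_neg (H : H63X.Hyp 𝒜) (hN : 0 < N) {z : FP 𝒜} {l : (Fin r → ℤ) →+ ℤ}
    (C : Ctx 𝒜 z l) {χ : Fin r → ℤ} {β : (Fin r → ℤ) →+ ℤ} {E F : VF R}
    (hr : Root 𝒜 N χ β E F) {η : Fin r → ℤ} (hη : z.Pi η) (hlη : l η ≤ 0) (hβη : β η = N)
    {x : Fin r → ℤ} (hβx : β x = -N) (hx : x ≠ η - χ) : Lf 𝒜 z x := by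
  have hηw : Wt 𝒜 η := ⟨z, hη⟩
  have hη0 : η ≠ 0 := H63X.ne_zero_of_pi H hη
  obtain ⟨τ, hτ, hτw, hτne⟩ := hη
  have hτ0 : τ ≠ 0 := by
    intro h0
    obtain ⟨d, m, h, hh, h2⟩ := hτne 0
    rw [h0] at h2
    simp at h2
  have hr' : Root 𝒜 N (-χ) (-β) F E := root_opp hr
  intro t ht htw
  obtain ⟨D, D', hD, hD', hD0, hsum⟩ := f2_dir H z hη0 hτ hτw hτ0 (χ := x) (fun y n hn hy hy' => by
    have h1 : y.ν = z.ν + n • η := by rw [hy]; abel
    refine ⟨fun k _ => C.low y n η hn h1 hηw hlη _, fun k hk => ?_⟩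
    have h1 : β (x + k • -η) = -N - k * N := by
      rw [map_add, map_nsmul, map_neg, hβx, hβη, nsmul_eq_mul]
      ring
    have h2 : (2 : ℤ) ≤ k := by exact_mod_cast hk
    refine ⟨fun h0 => ?_, fun hp => ?_⟩
    · rw [h0, map_zero] at h1
      nlinarith
    · have h3 := (abs_le.1 (wt_le hN hr ⟨y, hp⟩)).1
      nlinarith) ht htw
  have hD'0 : D' = 0 := by
    by_contra hne
    have h1 := field_two H hN hr' hD' hne (by
      rw [AddMonoidHom.neg_apply, map_sub, hβx, hβη]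
      ring)
    apply hx
    rw [← sub_eq_zero]
    have h2 : x - η + χ = 0 := by rw [h1]; abel
    rw [← h2]
    abel
  refine ⟨D, hD, fun y => ?_⟩
  rw [hsum y, hD'0, Derivation.zero_apply, map_zero, add_zero]

end Vale.Agent.P280.H60
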