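import Vale.Agent.P280.H60.Eta

/-! P280, T7, helper60, END: a negative weight of `z` has `n = 1`. -/

open DirectSum Vale.Agent.P280.T Vale.Agent.P280.H127

namespace Vale.Agent.P280.H60

open Vale.Agent.P280.N Vale.Agent.P280.H490 Vale.Agent.P280.H143
open Vale.Agent.P280.N.H989

theorem three {M : Type*} [AddCommMonoid M] (f : Fin 3 → M) (i j : Fin 3) (hij : i ≠ j) :
    ∃ k : Fin 3, k ≠ i ∧ k ≠ j ∧ f i + f j + f k = ∑ i, f i := by
  rw [Fin.sum_univ_three]
  fin_cases i <;> fin_cases j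
  · exact absurd rfl hij
  · exact ⟨2, by decide, by decide, rfl⟩
  · exact ⟨1, by decide, by decide, by change f 0 + f 2 + f 1 = _; abel⟩
  · exact ⟨2, by decide, by decide, by change f 1 + f 0 + f 2 = _; abel⟩
  · exact absurd rfl hij
  · exact ⟨0, by decide, by decide, by change f 1 + f 2 + f 0 = _; abel⟩
  · exact ⟨1, by decide, by decide, by change f 2 + f 0 + f 1 = _; abel⟩
  · exact ⟨0, by decide, by decide, by change f 2 + f 1 + f 0 = _; abel⟩
  · exact absurd rfl hij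

variable {r : ℕ} {R : Type} [CommRing R] [IsDomain R] [Algebra ℂ R]
  {𝒜 : ℕ × (Fin r → ℤ) → Submodule ℂ R} [GradedAlgebra 𝒜]
  {N : ℤ} {b : (Fin r → ℤ) → ((Fin r → ℤ) →+ ℤ)} {al : (Fin r → ℤ) → ℂ}
  {E F : (Fin r → ℤ) → Derivation ℂ R R} {a : (Fin r → ℤ) → FP 𝒜 → ℤ}

/-- The trick with `φ E` for a vertex `χ` with `a χ z = 0`. -/
theorem trick (H : H63X.Hyp 𝒜) (h : RD 𝒜 N b al E F a) {z : FP 𝒜} {χ η : Fin r → ℤ}
    (hχ : Vx 𝒜 χ) (ha : a χ z = 0) (hη : z.Pi η) (hbη : b χ η = N) (h1 : One 𝒜 z η)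
    (h2 : One 𝒜 z (η - χ)) (hw : ∀ w, z.Pi w → w = η ∨ w = η - χ ∨ b χ w = 0) :
    ∃ β : (Fin r → ℤ) →+ ℂ, β η = 0 ∧ β (η - χ) = 1 ∧ ∀ w, z.Pi w → b χ w = 0 → β w = 0 := by
  have hN := h.N0
  have hNC : (N : ℂ) ≠ 0 := by exact_mod_cast hN.ne'
  obtain ⟨hn1, hn2⟩ := h.az χ hχ z ha
  have hR := (h.rt χ hχ).neg
  obtain ⟨bb, c, hbb, hb2, hF', hEF⟩ := hR.norm hN
  have hE0 := val_zero z (vx_ne hχ) (h.rt χ hχ).hE hn1
  have hF0 := val_zero z (neg_ne_zero.2 (vx_ne hχ)) (h.rt χ hχ).hF hn2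
  have hbb' : ∀ w, bb w = 0 ↔ b χ w = 0 := by
    intro w
    have h3 := hbb w
    rw [AddMonoidHom.neg_apply] at h3
    constructor
    · intro h4
      rw [h4, mul_zero] at h3
      have h5 : -b χ w = 0 := by exact_mod_cast h3.symm
      omega
    · intro h4
      rw [h4, neg_zero, Int.cast_zero] at h3
      exact (mul_eq_zero.1 h3).resolve_left hNC
  obtain ⟨β, hβ1, hβ2, hβ3⟩ := phi_trick H.hX H.tor z (H.iso z.q z.ν z.nv z.fix) (v := -χ)
    (η := η) hR.hE hF' (α := c) hb2 hEF hF0 (fun h => by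
      rw [Derivation.smul_apply, map_smul, hE0, smul_zero]) hη (by
      have h3 := hbb η
      rw [AddMonoidHom.neg_apply, hbη] at h3
      push_cast at h3
      have h4 : (N : ℂ) * (bb η + 1) = 0 := by linear_combination h3
      exact eq_neg_of_add_eq_zero_left ((mul_eq_zero.1 h4).resolve_left hNC)) h1
      (by rw [← sub_eq_add_neg]; exact h2) (fun w hwz => by
        rw [← sub_eq_add_neg, hbb']
        exact hw w hwz)
  rw [← sub_eq_add_neg] at hβ2
  exact ⟨β, hβ1, hβ2, fun w hwz h3 => hβ3 w hwz ((hbb' w).2 h3)⟩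

theorem no_big (H : H63X.Hyp 𝒜) (h : RD 𝒜 N b al E F a) {z : FP 𝒜}
    {l : (Fin r → ℤ) →+ ℤ} (C : Ctx 𝒜 z l) {η : Fin r → ℤ} (hη : z.Pi η) (hl : l η ≤ 0)
    {n : ℕ} {χ : Fin n → Fin r → ℤ} (c : KS (H63X.VV H) {ω | Wt 𝒜 ω} b N η χ) (hn : 2 ≤ n)
    (ha : ∀ j, a (χ j) z = 0) (hPi : ∀ j, z.Pi (η - χ j)) (hOne : One 𝒜 z η)
    (hOne' : ∀ j, One 𝒜 z (η - χ j)) : False := by
  classical
  have hN := h.N0
  have hRS := h.rs H
  have hVx : ∀ {ψ}, ψ ∈ H63X.VV H → Vx 𝒜 ψ := fun hψ => (H63X.mem_VV H).1 hψ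
  have hv : ∀ j, Vx 𝒜 (χ j) := fun j => hVx (c.mem j)
  have hnp : ∀ j, ¬ z.Pi (χ j) ∧ ¬ z.Pi (-χ j) := fun j => h.az _ (hv j) z (ha j)
  have hup : ∀ j x, z.Pi x → b (χ j) x < 0 → z.Pi (x + χ j) := fun j x hx hb =>
    H63X.root_add H hN (h.root _ (hv j)) (hnp j).1 (hnp j).2 hx hb
  have hdn : ∀ j x, z.Pi x → 0 < b (χ j) x → z.Pi (x - χ j) := fun j x hx hb =>
    H63X.root_sub H hN (h.root _ (hv j)) (hnp j).1 (hnp j).2 hx hb
  have hL : ∀ j x, z.Pi x → b (χ j) x ≠ 0 → x ≠ η → x ≠ η - χ j → 0 < l x :=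
    fun j x hx hb h1 h2 => C.pos hx
      (lf_of_ne H h C (hv j) hη hl (c.bl j) (ha j) hx hb h1 h2)
  have hpr : ∀ i j, i ≠ j → b (χ i) (χ j) = N := c.pair
  have htw : ∀ j, b (χ j) (χ j) = 2 * N := fun j => hRS.two _ (c.mem j)
  have hoth : ∀ j : Fin n, ∃ i, i ≠ j := by
    intro j
    by_cases h0 : (j : ℕ) = 0
    · exact ⟨⟨1, by omega⟩, fun h1 => by rw [← h1] at h0; simp at h0⟩
    · exact ⟨⟨0, by omega⟩, fun h1 => by rw [← h1] at h0; simp at h0⟩
  -- (N1)
  have hN1 : ¬ z.Pi (-η) := by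
    intro h1
    have h2 : ∀ k, 0 < l (χ k - η) := by
      intro k
      refine hL k _ ?_ ?_ ?_ ?_
      · have := hup k (-η) h1 (by rw [map_neg, c.bl]; omega)
        rwa [neg_add_eq_sub] at this
      · rw [map_sub, htw, c.bl]
        omega
      · intro h3
        obtain ⟨i, hi⟩ := hoth k
        have h4 : χ k = η + η := by rw [← sub_eq_iff_eq_add]; exact h3
        have h5 := hpr i k hi
        rw [h4, map_add, c.bl] at h5
        omega
      · intro h3
        have h4 := congrArg (b (χ k)) h3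
        rw [map_sub, map_sub, htw, c.bl] at h4
        omega
    have h3 := congrArg l c.sum_eq
    rw [map_sum] at h3
    have h4 : 0 < ∑ k, l (χ k - η) :=
      Finset.sum_pos (fun k _ => h2 k) ⟨(⟨0, by omega⟩ : Fin n), Finset.mem_univ _⟩
    omega
  have hN2 : ∀ k, ¬ z.Pi (χ k - η) := by
    intro k h1
    have h2 := hdn k _ h1 (by rw [map_sub, htw, c.bl]; omega)
    apply hN1
    have h3 : χ k - η - χ k = -η := by abel
    rwa [h3] at h2
  have hN3 : ∀ i j, i ≠ j → ¬ z.Pi (χ i - χ j) := by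
    intro i j hij h1
    have h2 := hup j _ h1 (by rw [map_sub, hpr j i hij.symm, htw]; omega)
    rw [sub_add_cancel] at h2
    exact (hnp i).1 h2
  have hN4 : n = 3 → ∀ i j, i ≠ j → ∀ w, (w = (χ i - η) + (χ j - η) ∨
      w = -((χ i - η) + (χ j - η))) → ¬ z.Pi w := by
    intro hn3 i j hij w hw hzw
    subst hn3
    obtain ⟨k, hki, hkj, hsum⟩ := three (fun i => χ i - η) i j hij
    have hs : (χ i - η) + (χ j - η) + (χ k - η) = η := hsum.trans c.sum_eq
    have hu : -((χ i - η) + (χ j - η)) = χ k - η - η :=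
      neg_eq_of_add_eq_zero_right (by rw [← add_sub_assoc, hs, sub_self])
    set u := (χ i - η) + (χ j - η) with hu'
    have bi : b (χ i) u = N := by
      rw [hu', map_add, c.be, c.be, if_pos rfl, if_neg hij.symm, add_zero]
    have bj : b (χ j) u = N := by
      rw [hu', map_add, c.be, c.be, if_pos rfl, if_neg hij, zero_add]
    have bk : b (χ k) u = 0 := by
      rw [hu', map_add, c.be, c.be, if_neg hki.symm, if_neg hkj.symm, add_zero]
    have hfw : z.Pi u → z.Pi (-u) := by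
      intro h1
      have h2 := hdn i u h1 (by rw [bi]; exact hN)
      have h3 := hup k _ h2 (by rw [map_sub, bk, hpr k i hki]; omega)
      have h4 := hdn j _ h3 (by
        rw [map_add, map_sub, bj, hpr j i hij.symm, hpr j k (Ne.symm hkj)]; omega)
      rw [hu]
      have h5 : u - χ i + χ k - χ j = χ k - η - η := by
        rw [hu']
        abel
      rwa [h5] at h4
    have hbw : z.Pi (-u) → z.Pi u := by
      intro h1
      have h2 := hup j (-u) h1 (by rw [map_neg, bj]; omega)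
      have h3 := hdn k _ h2 (by rw [map_add, map_neg, bk, hpr k j hkj]; omega)
      have h4 := hup i _ h3 (by
        rw [map_sub, map_add, map_neg, bi, hpr i j hij, hpr i k (Ne.symm hki)]; omega)
      have h5 : -u + χ j - χ k + χ i = u := by
        rw [hu, hu']
        abel
      rwa [h5] at h4
    have hboth : z.Pi u ∧ z.Pi (-u) := by
      rcases hw with h1 | h1
      · exact ⟨h1 ▸ hzw, hfw (h1 ▸ hzw)⟩
      · exact ⟨hbw (h1 ▸ hzw), h1 ▸ hzw⟩
    have l1 : 0 < l u := by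
      refine hL i u hboth.1 (by rw [bi]; omega) ?_ ?_
      · intro h1
        have h2 := c.bl k
        rw [← h1, bk] at h2
        omega
      · intro h1
        have h2 := congrArg (b (χ i)) h1
        rw [bi, map_sub, c.bl, htw] at h2
        omega
    have l2 : 0 < l (-u) := by
      refine hL i (-u) hboth.2 (by rw [map_neg, bi]; omega) ?_ ?_
      · intro h1
        have h2 := congrArg (b (χ k)) h1
        rw [map_neg, bk, c.bl] at h2
        omega
      · intro h1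
        have h2 := congrArg (b (χ j)) h1
        rw [map_neg, bj, map_sub, c.bl, hpr j i hij.symm] at h2
        omega
    rw [map_neg] at l2
    omega
  -- the trick
  let j0 : Fin n := ⟨0, by omega⟩
  obtain ⟨β, hβ1, hβ2, hβ3⟩ := trick H h (hv j0) (ha j0) hη (c.bl j0) hOne (hOne' j0) (by
    intro w hw
    rcases c.class_W hn (μ := w) ⟨z, hw⟩ with h1 | ⟨j, h1 | h1⟩ | ⟨i, j, hij, h1⟩ |
      ⟨j, h1 | h1⟩ | h1 | h1 | ⟨h3, i, j, hij, h1⟩
    · exact Or.inr (Or.inr (h1 j0))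
    · exact absurd (h1 ▸ hw) (hnp j).1
    · exact absurd (h1 ▸ hw) (hnp j).2
    · exact absurd (h1 ▸ hw) (hN3 i j hij)
    · exact absurd (h1 ▸ hw) (hN2 j)
    · rw [neg_sub] at h1
      by_cases hj : j = j0
      · exact Or.inr (Or.inl (by rw [h1, hj]))
      · refine Or.inr (Or.inr ?_)
        rw [h1, map_sub, c.bl, hpr j0 j (Ne.symm hj), sub_self]
    · exact Or.inl h1
    · exact absurd (h1 ▸ hw) hN1
    · exact absurd hw (hN4 h3 i j hij w h1))
  have h1 := congrArg β c.sum_eq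
  rw [map_sum, hβ1, Finset.sum_eq_single j0] at h1
  · have h2 : β (χ j0 - η) = -1 := by
      rw [← neg_sub, map_neg, hβ2]
    rw [h2] at h1
    norm_num at h1
  · intro j _ hj
    rw [← neg_sub, map_neg, hβ3 _ (hPi j) (by
      rw [map_sub, c.bl, hpr j0 j (Ne.symm hj), sub_self]), neg_zero]
  · intro h2
    exact absurd (Finset.mem_univ _) h2

end Vale.Agent.P280.H60
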