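import Vale.Agent.P280.H60.DerAC

/-! P280, R3: the derivations of a local domain with values in the algebraic closure. -/

open TensorProduct

namespace Vale.Agent.P280.H60

/-- A finite algebraically independent family. -/
theorem exists_alg_family {R : Type} [CommRing R] [IsDomain R] [Algebra ℂ R] {N : ℕ}
    (hN : (N : Cardinal) ≤ Algebra.trdeg ℂ R) : ∃ x : Fin N → R, AlgebraicIndependent ℂ x := by
  obtain ⟨ι, x, hx⟩ := exists_isTranscendenceBasis' ℂ (A := R)
  have h1 : (N : Cardinal) ≤ Cardinal.mk ι := by rwa [hx.cardinalMk_eq_trdeg]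
  rw [← Cardinal.mk_fin, Cardinal.le_def] at h1
  obtain ⟨e⟩ := h1
  exact ⟨x ∘ e, hx.1.comp e e.injective⟩

/-- Derivations dual to an algebraically independent family. -/
theorem exists_dual_der {L : Type} [Field L] [Algebra ℂ L] [IsAlgClosed L] {ι : Type} {x : ι → L}
    (hx : AlgebraicIndependent ℂ x) (i : ι) :
    ∃ D : Derivation ℤ L L, (∀ c : ℂ, D (algebraMap ℂ L c) = 0) ∧ D (x i) = 1 ∧
      ∀ j, j ≠ i → D (x j) = 0 := by
  let M : IntermediateField ℂ L := IntermediateField.adjoin ℂ (x '' {j | j ≠ i})
  have h1 : ¬ IsAlgebraic M (x i) := by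
    rw [IntermediateField.isAlgebraic_adjoin_iff]
    exact hx.transcendental_adjoin (s := {j | j ≠ i}) (i := i) (by simp)
  obtain ⟨D, hD, hDi⟩ := exists_derivation M h1
  exact ⟨D, fun c => hD _ (M.algebraMap_mem c), hDi, fun j hj =>
    hD _ (IntermediateField.subset_adjoin _ _ ⟨j, hj, rfl⟩)⟩

theorem le_card_of_span_aux {O : Type} [CommRing O] [Algebra ℂ O] {L : Type} [Field L]
    [Algebra ℂ L] [Algebra O L] [IsScalarTower ℂ O L] [IsAlgClosed L]
    (hinj : Function.Injective (algebraMap O L)) {N : ℕ} {x : Fin N → O}
    (hx : AlgebraicIndependent ℂ x) {ι : Type} [Fintype ι] (f : ι → Ω[O⁄ℂ])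
    (hf : Submodule.span O (Set.range f) = ⊤) : N ≤ Fintype.card ι := by
  let j : O →ₐ[ℂ] L := IsScalarTower.toAlgHom ℂ O L
  have hj : ∀ a, j a = algebraMap O L a := fun _ => rfl
  have hx' : AlgebraicIndependent ℂ (j ∘ x) := hx.map' (f := j) hinj
  choose D hD0 hD1 hD2 using fun i => exists_dual_der hx' i
  -- the derivations of `O`
  let T : Fin N → Derivation ℂ O L := fun i => Derivation.mk'
    { toFun := fun a => D i (algebraMap O L a)
      map_add' := fun a b => by rw [map_add, map_add]
      map_smul' := fun c a => by
        rw [Algebra.smul_def, map_mul, Derivation.leibniz, ← IsScalarTower.algebraMap_apply,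
          hD0, smul_zero, add_zero, smul_eq_mul, RingHom.id_apply, Algebra.smul_def] }
    (fun a b => by
      change D i (algebraMap O L (a * b)) = a • D i (algebraMap O L b) + b • D i (algebraMap O L a)
      rw [map_mul, Derivation.leibniz, smul_eq_mul, smul_eq_mul, Algebra.smul_def,
        Algebra.smul_def])
  have hT : ∀ i a, T i a = D i (algebraMap O L a) := fun _ _ => rfl
  let l : Fin N → (Ω[O⁄ℂ] →ₗ[O] L) := fun i => (T i).liftKaehlerDifferential
  have hl : ∀ i a, l i (KaehlerDifferential.D ℂ O a) = D i (algebraMap O L a) := fun i a => by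
    change (T i).liftKaehlerDifferential (KaehlerDifferential.D ℂ O a) = _
    rw [Derivation.liftKaehlerDifferential_comp_D, hT]
  have hli : LinearIndependent L (fun i : Fin N => fun a : ι => l i (f a)) := by
    rw [Fintype.linearIndependent_iff]
    intro c hc i
    have h1 : ∀ m : Ω[O⁄ℂ], ∑ i, c i * l i m = 0 := by
      intro m
      have hm : m ∈ Submodule.span O (Set.range f) := by rw [hf]; exact Submodule.mem_top
      induction hm using Submodule.span_induction with
      | mem m hm =>
        obtain ⟨a, rfl⟩ := hm
        have h2 := congrFun hc a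
        rw [Finset.sum_apply] at h2
        exact h2
      | zero => simp
      | add a b _ _ ha hb =>
        simp only [map_add, mul_add, Finset.sum_add_distrib]
        rw [ha, hb, add_zero]
      | smul r a _ ha =>
        have h3 : ∀ i, c i * l i (r • a) = algebraMap O L r * (c i * l i a) := fun i => by
          rw [map_smul, Algebra.smul_def]
          ring
        simp only [h3]
        rw [← Finset.mul_sum, ha, mul_zero]
    have h2 := h1 (KaehlerDifferential.D ℂ O (x i))
    simp only [hl] at h2
    rw [Finset.sum_eq_single i] at h2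
    · have h3 : D i (algebraMap O L (x i)) = 1 := hD1 i
      rw [h3, mul_one] at h2
      exact h2
    · intro k _ hk
      have h3 : D k (algebraMap O L (x i)) = 0 := hD2 k i (Ne.symm hk)
      rw [h3, mul_zero]
    · intro h3
      exact absurd (Finset.mem_univ i) h3
  have h2 := hli.fintype_card_le_finrank
  rwa [Fintype.card_fin, Module.finrank_fintype_fun_eq_card] at h2

/-- The number of generators of the differentials of a domain is at least the transcendence
degree. -/
theorem le_card_of_span {O : Type} [CommRing O] [IsDomain O] [Algebra ℂ O] {N : ℕ} {x : Fin N → O}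
    (hx : AlgebraicIndependent ℂ x) {ι : Type} [Fintype ι] (f : ι → Ω[O⁄ℂ])
    (hf : Submodule.span O (Set.range f) = ⊤) : N ≤ Fintype.card ι := by
  refine le_card_of_span_aux (L := AlgebraicClosure (FractionRing O)) ?_ hx f hf
  rw [IsScalarTower.algebraMap_eq O (FractionRing O) (AlgebraicClosure (FractionRing O))]
  exact (algebraMap (FractionRing O) _).injective.comp (IsFractionRing.injective O _)

end Vale.Agent.P280.H60
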