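import Vale.Agent.P280.H60.Cas

/-! P280, T7, helper60, END: the weights near an `A_1` component. -/

open DirectSum Vale.Agent.P280.T Vale.Agent.P280.H127

namespace Vale.Agent.P280.H60

open Vale.Agent.P280.N Vale.Agent.P280.H490 Vale.Agent.P280.H143
open Vale.Agent.P280.N.H989

section
variable {r : ℕ} {V : Finset (Fin r → ℤ)} {W : Set (Fin r → ℤ)}
  {b : (Fin r → ℤ) → ((Fin r → ℤ) →+ ℤ)} {N : ℤ} {η : Fin r → ℤ} {χ : Fin 1 → Fin r → ℤ}

theorem ks_two (c : KS V W b N η χ) : χ 0 = η + η := by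
  have h1 := c.sum_eq
  rw [Fin.sum_univ_one] at h1
  rw [← sub_eq_iff_eq_add]
  exact h1

theorem ks_dich (c : KS V W b N η χ) {ψ : Fin r → ℤ} (hψ : ψ ∈ V) :
    ψ = χ 0 ∨ ψ = -χ 0 ∨ (b ψ η = 0 ∧ b ψ (χ 0) = 0 ∧ b (χ 0) ψ = 0) := by
  rcases c.dich hψ with ⟨j, rfl⟩ | ⟨j, rfl⟩ | ⟨i, j, hij, -⟩ | h3
  · exact Or.inl (by rw [Subsingleton.elim j 0])
  · exact Or.inr (Or.inl (by rw [Subsingleton.elim j 0]))
  · exact absurd (Subsingleton.elim i j) hij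
  · exact Or.inr (Or.inr ⟨h3.1, h3.2.1 0, h3.2.2 0⟩)

/-- The functionals `s b_χ + s' b_ψ`. -/
theorem ks_le (c : KS V W b N η χ) {ψ : Fin r → ℤ} (hψ : ψ ∈ V) (h1 : b ψ (χ 0) = 0)
    {s s' : ℤ} (hs : s = 1 ∨ s = -1) (hs' : s' = 1 ∨ s' = -1) {ω : Fin r → ℤ} (hω : ω ∈ W) :
    s * b (χ 0) ω + s' * b ψ ω ≤ 2 * N := by
  have hN := c.h.N0
  have key := c.h.ext (s • b (χ 0) + s' • b ψ) (2 * N) (by positivity) (fun ρ hρ => by
    rw [AddMonoidHom.add_apply, AddMonoidHom.smul_apply, AddMonoidHom.smul_apply, smul_eq_mul,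
      smul_eq_mul]
    have htw : b (χ 0) (χ 0) = 2 * N := c.h.two _ (c.mem 0)
    rcases ks_dich c hρ with h2 | h2 | ⟨-, -, h4⟩
    · rw [h2, h1, htw]
      rcases hs with rfl | rfl <;> rcases hs' with rfl | rfl <;> nlinarith
    · rw [h2, map_neg, map_neg, h1, htw]
      rcases hs with rfl | rfl <;> rcases hs' with rfl | rfl <;> nlinarith
    · rw [h4, mul_zero, zero_add]
      have h5 : |b ψ ρ| ≤ 2 * N := by
        by_cases e1 : ρ = ψ
        · rw [e1, c.h.two ψ hψ, abs_of_pos (by positivity)]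
        · by_cases e2 : ρ = -ψ
          · rw [e2, map_neg, c.h.two ψ hψ, abs_neg, abs_of_pos (by positivity)]
          · have := c.h.bd ψ hψ ρ (c.h.sub ρ hρ) e1 e2
            linarith
      rw [abs_le] at h5
      rcases hs' with rfl | rfl <;> linarith [h5.1, h5.2]) ω hω
  rwa [AddMonoidHom.add_apply, AddMonoidHom.smul_apply, AddMonoidHom.smul_apply, smul_eq_mul,
    smul_eq_mul] at key

/-- A weight `x ≠ η` with `b_χ x = N` is the midpoint of an edge from `χ`. -/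
theorem edge (c : KS V W b N η χ) {x : Fin r → ℤ} (hx : x ∈ W) (hbx : b (χ 0) x = N)
    (hxη : x ≠ η) : ∃ ψ ∈ V, ψ = x + x - χ 0 ∧ b ψ (χ 0) = 0 ∧ b (χ 0) ψ = 0 ∧ b ψ x = N := by
  classical
  have hN := c.h.N0
  have hRS := c.h
  have htw : b (χ 0) (χ 0) = 2 * N := hRS.two _ (c.mem 0)
  have hχW : χ 0 ∈ W := hRS.sub _ (c.mem 0)
  -- a vertex not orthogonal to `x`
  obtain ⟨ρ, hρ, hρχ, hχρ, hρx⟩ : ∃ ρ ∈ V, b ρ (χ 0) = 0 ∧ b (χ 0) ρ = 0 ∧ b ρ x ≠ 0 := by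
    by_contra hcon
    push Not at hcon
    have h0 : x + x - χ 0 = 0 := by
      apply hRS.nd
      · intro ρ hρ
        rcases ks_dich c hρ with h2 | h2 | ⟨-, h3, h4⟩
        · rw [h2, map_sub, map_add, hbx, htw]
          ring
        · rw [h2, map_sub, map_add, hRS.neg_b (c.mem 0) hx, hRS.neg_b (c.mem 0) hχW, hbx, htw]
          ring
        · rw [map_sub, map_add, hcon ρ hρ h3 h4, h3]
          ring
      · intro g hg
        rw [map_sub, map_add, hRS.ext0 g hg hx, hg _ (c.mem 0)]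
        ring
    apply hxη
    rw [ks_two c, sub_eq_zero] at h0
    funext i
    have := congrFun h0 i
    simp only [Pi.add_apply] at this
    omega
  have hxρ : x ≠ ρ := fun h1 => by rw [h1, hχρ] at hbx; omega
  have hxρ' : x ≠ -ρ := fun h1 => by rw [h1, map_neg, hχρ] at hbx; omega
  obtain ⟨ψ, hψ, h1, h2, h3⟩ : ∃ ψ ∈ V, b ψ (χ 0) = 0 ∧ b (χ 0) ψ = 0 ∧ b ψ x = N := by
    rcases hRS.vals hρ hx hxρ hxρ' with h4 | h4 | h4
    · exact absurd h4 hρx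
    · exact ⟨ρ, hρ, hρχ, hχρ, h4⟩
    · exact ⟨-ρ, hRS.neg_mem hρ, by rw [hRS.neg_b hρ hχW, hρχ, neg_zero],
        by rw [map_neg, hχρ, neg_zero], by rw [hRS.neg_b hρ hx, h4, neg_neg]⟩
  have hψψ : b ψ ψ = 2 * N := hRS.two ψ hψ
  -- `x` is on the edge
  have hle : ∀ h0 : (Fin r → ℤ) →+ ℤ, 2 * h0 x ≤ h0 (χ 0) + h0 ψ := by
    intro h0
    set h : (Fin r → ℤ) →+ ℤ := (2 * N) • h0 - (h0 (χ 0)) • b (χ 0) - (h0 ψ) • b ψ with hh
    have hv : ∀ ω, h ω = 2 * N * h0 ω - h0 (χ 0) * b (χ 0) ω - h0 ψ * b ψ ω := fun ω => by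
      rw [hh]
      simp [AddMonoidHom.sub_apply, AddMonoidHom.smul_apply, smul_eq_mul]
    obtain ⟨K, hK0, hK⟩ : ∃ K : ℤ, 0 ≤ K ∧ ∀ ρ ∈ V, |h ρ| ≤ K :=
      ⟨∑ ρ ∈ V, |h ρ|, Finset.sum_nonneg fun _ _ => abs_nonneg _, fun ρ hρ =>
        Finset.single_le_sum (f := fun ρ => |h ρ|) (fun _ _ => abs_nonneg _) hρ⟩
    have key := hRS.ext (K • (b (χ 0) + b ψ) + h) (2 * N * K) (by positivity) (fun ρ hρ => by
      rw [AddMonoidHom.add_apply, AddMonoidHom.smul_apply, AddMonoidHom.add_apply, smul_eq_mul]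
      rcases ks_dich c hρ with e | e | ⟨-, -, h4⟩
      · rw [hv, e, h1, htw]
        nlinarith
      · have e1 := abs_le.1 (hK ρ hρ)
        have e2 : b (χ 0) ρ + b ψ ρ = -(2 * N) := by
          rw [e, map_neg, map_neg, h1, htw]
          ring
        rw [e2]
        nlinarith [e1.2]
      · by_cases e : ρ = ψ
        · rw [hv, e, h2, hψψ]
          nlinarith
        · have e1 := abs_le.1 (hK ρ hρ)
          have e2 := hRS.le_N hψ (hRS.sub ρ hρ) e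
          rw [h4]
          nlinarith [e1.2]) x hx
    rw [AddMonoidHom.add_apply, AddMonoidHom.smul_apply, AddMonoidHom.add_apply, smul_eq_mul,
      hv, hbx, h3] at key
    have h5 : N * (2 * h0 x - (h0 (χ 0) + h0 ψ)) ≤ 0 := by linarith
    by_contra hcon
    push Not at hcon
    nlinarith
  refine ⟨ψ, hψ, ?_, h1, h2, h3⟩
  funext i
  have h4 := hle (Pi.evalAddMonoidHom (fun _ => ℤ) i)
  have h5 := hle (-(Pi.evalAddMonoidHom (fun _ => ℤ) i))
  simp only [AddMonoidHom.neg_apply, Pi.evalAddMonoidHom_apply] at h4 h5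
  simp only [Pi.sub_apply, Pi.add_apply]
  linarith

end

end Vale.Agent.P280.H60
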