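import Vale.Agent.P280.H60.Edge
import Vale.Agent.P280.H143.Claim0

/-! P280, T7, helper60, END: assembly. If the boundary weights are liftable everywhere and all
weights at the sources, then all tangent vectors at all fixed points are liftable. -/

open DirectSum Vale.Agent.P280.T Vale.Agent.P280.H127

namespace Vale.Agent.P280.H60

open Vale.Agent.P280.N Vale.Agent.P280.H490 Vale.Agent.P280.H143
open Vale.Agent.P280.N.H989

variable {r : ℕ} {R : Type} [CommRing R] [IsDomain R] [Algebra ℂ R]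
  {𝒜 : ℕ × (Fin r → ℤ) → Submodule ℂ R} [GradedAlgebra 𝒜]
  {N : ℤ} {b : (Fin r → ℤ) → ((Fin r → ℤ) →+ ℤ)} {al : (Fin r → ℤ) → ℂ}
  {E F : (Fin r → ℤ) → Derivation ℂ R R} {a : (Fin r → ℤ) → FP 𝒜 → ℤ}

/-- The statement of the mixing lemma. -/
def MixP (𝒜 : ℕ × (Fin r → ℤ) → Submodule ℂ R) : Prop :=
  ∀ (N : ℤ), 0 < N → ∀ (a : Fin r → ℤ), Vx 𝒜 a → ∀ (β : (Fin r → ℤ) →+ ℤ) (α : ℂ)
    (E F : Derivation ℂ R R), Rt 𝒜 N a β α E F → ∀ z : FP 𝒜, (∀ h, z.q (E h) = 0) →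
    (∀ h, z.q (F h) = 0) → ∀ e : Fin r → ℤ, 2 • e = a → z.Pi e → z.Pi (-e) → One 𝒜 z e →
    One 𝒜 z (-e) → Nf 𝒜 z e →
    (∀ (y : FP 𝒜) (n : ℕ), 1 ≤ n → z.ν = y.ν - n • (-e) → y.Pi e → ∀ w, Lf 𝒜 y w) →
    ∀ x : Fin r → ℤ, z.Pi x → β x = -N → x ≠ -e → Vx 𝒜 (2 • x + a) → ¬ z.Pi (-(x + e)) →
    (∀ (y : FP 𝒜) (w : Fin r → ℤ), y.Pi w → (w = x ∨ w = -x ∨ w = x + a) →
      Lf 𝒜 y w ∧ One 𝒜 y w) → False

/-- The case `n = 1`. -/
theorem no_one (H : H63X.Hyp 𝒜) (hmix : MixP 𝒜) (h : RD 𝒜 N b al E F a) {z : FP 𝒜}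
    {l : (Fin r → ℤ) →+ ℤ} (C : Ctx 𝒜 z l)
    (hs : ∀ ω, Wt 𝒜 ω → l ω ≤ 0 → ∑ χ ∈ H63X.VV H, a χ z * b χ ω ≤ 0) {η : Fin r → ℤ}
    (hη : z.Pi η) (hl : l η ≤ 0)
    {χ : Fin 1 → Fin r → ℤ} (c : KS (H63X.VV H) {ω | Wt 𝒜 ω} b N η χ)
    (ha : a (χ 0) z = 0) (hPi : z.Pi (η - χ 0)) (hOne : One 𝒜 z η)
    (hOne' : One 𝒜 z (η - χ 0)) (hNf : Nf 𝒜 z (η - χ 0)) : False := by
  classical
  have hN := h.N0
  have hRS := h.rs H
  have hVx : ∀ {ψ}, ψ ∈ H63X.VV H → Vx 𝒜 ψ := fun hψ => (H63X.mem_VV H).1 hψ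
  have hv : Vx 𝒜 (χ 0) := hVx (c.mem 0)
  obtain ⟨hn1, hn2⟩ := h.az _ hv z ha
  have htwo : χ 0 = η + η := ks_two c
  have htw : b (χ 0) (χ 0) = 2 * N := hRS.two _ (c.mem 0)
  have hbη : b (χ 0) η = N := c.bl 0
  have hup : ∀ x, z.Pi x → b (χ 0) x < 0 → z.Pi (x + χ 0) := fun x hx hb =>
    H63X.root_add H hN (h.root _ hv) hn1 hn2 hx hb
  have hdn : ∀ x, z.Pi x → 0 < b (χ 0) x → z.Pi (x - χ 0) := fun x hx hb =>
    H63X.root_sub H hN (h.root _ hv) hn1 hn2 hx hb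
  have hL : ∀ x, z.Pi x → b (χ 0) x ≠ 0 → x ≠ η → x ≠ η - χ 0 → 0 < l x :=
    fun x hx hb h1 h2 => C.pos hx (lf_of_ne H h C hv hη hl hbη ha hx hb h1 h2)
  have hηχ : η - χ 0 = -η := by rw [htwo]; abel
  -- a weight `x`
  obtain ⟨x, hx, hbx, hxη⟩ : ∃ x, z.Pi x ∧ b (χ 0) x = N ∧ x ≠ η := by
    by_contra hcon
    push Not at hcon
    obtain ⟨β, hβ1, hβ2, -⟩ := trick H h hv ha hη hbη hOne hOne' (by
      intro w hw
      have hw1 : w ≠ χ 0 := fun h1 => hn1 (h1 ▸ hw)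
      have hw2 : w ≠ -χ 0 := fun h1 => hn2 (h1 ▸ hw)
      rcases hRS.vals (c.mem 0) (ω := w) ⟨z, hw⟩ hw1 hw2 with h3 | h3 | h3
      · exact Or.inr (Or.inr h3)
      · exact Or.inl (hcon w hw h3)
      · refine Or.inr (Or.inl ?_)
        have h4 := hcon (w + χ 0) (hup w hw (by rw [h3]; omega)) (by
          rw [map_add, h3, htw]; ring)
        rw [← h4, add_sub_cancel_right])
    rw [hηχ, map_neg, hβ1, neg_zero] at hβ2
    exact zero_ne_one hβ2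
  -- its edge
  obtain ⟨ψ, hψ, hψx, hψχ, hχψ, hψb⟩ := edge c (x := x) ⟨z, hx⟩ hbx hxη
  have hxη' : x ≠ η - χ 0 := by
    intro h1
    rw [h1, map_sub, hbη, htw] at hbx
    omega
  have hlx : 0 < l x := hL x hx (by rw [hbx]; omega) hxη hxη'
  have hx' : z.Pi (x - χ 0) := hdn x hx (by rw [hbx]; exact hN)
  have hlx' : 0 < l (x - χ 0) := by
    refine hL _ hx' ?_ ?_ ?_
    · rw [map_sub, hbx, htw]; omega
    · intro h1
      have h2 := congrArg (b (χ 0)) h1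
      rw [map_sub, hbx, htw, hbη] at h2
      omega
    · intro h1
      exact hxη (sub_left_injective h1)
  have hlψ : 0 < l ψ := by
    have h1 : ψ = x + (x - χ 0) := by rw [hψx]; abel
    rw [h1, map_add]
    omega
  -- the boundary weights
  have hbd : ∀ w, (w = x ∨ w = -x ∨ w = x - χ 0) → Bdy 𝒜 w := by
    have key : ∀ (s s' : ℤ), (s = 1 ∨ s = -1) → (s' = 1 ∨ s' = -1) → ∀ w,
        s * b (χ 0) w + s' * b ψ w = 2 * N → Bdy 𝒜 w := by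
      intro s s' hs1 hs2 w hw
      refine ⟨s • b (χ 0) + s' • b ψ, ?_, fun ω hω => ?_⟩
      · rw [AddMonoidHom.add_apply, AddMonoidHom.smul_apply, AddMonoidHom.smul_apply, smul_eq_mul,
          smul_eq_mul, hw]
        positivity
      · rw [AddMonoidHom.add_apply, AddMonoidHom.smul_apply, AddMonoidHom.smul_apply, smul_eq_mul,
          smul_eq_mul, AddMonoidHom.add_apply, AddMonoidHom.smul_apply, AddMonoidHom.smul_apply,
          smul_eq_mul, smul_eq_mul, hw]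
        exact ks_le c hψ hψχ hs1 hs2 hω
    rintro w (rfl | rfl | rfl)
    · refine key 1 1 (Or.inl rfl) (Or.inl rfl) _ ?_
      rw [hbx, hψb]; ring
    · refine key (-1) (-1) (Or.inr rfl) (Or.inr rfl) _ ?_
      rw [map_neg, map_neg, hbx, hψb]; ring
    · refine key (-1) 1 (Or.inr rfl) (Or.inl rfl) _ ?_
      rw [map_sub, map_sub, hbx, hψb, hψχ, htw]; ring
  have hnx : ¬ z.Pi (-x) := by
    intro h1
    have h2 := C.pos h1 (C.bd z _ h1 (hbd _ (Or.inr (Or.inl rfl)))).1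
    rw [map_neg] at h2
    omega
  -- `-(x + e)` is not a weight of `z`
  have hne : ¬ z.Pi (η - x) := by
    intro h1
    have h2 : ψ = (x - η) + (x - η) := by rw [hψx, htwo]; abel
    have h3 : l (η - x) ≤ 0 := by
      rw [h2, map_add] at hlψ
      rw [← neg_sub, map_neg]
      omega
    obtain ⟨n', χ', c', -, ha', -⟩ := eta_step H h C hs h1 h3
    have hψη : b ψ η = 0 := by
      rcases ks_dich c hψ with h4 | h4 | h4
      · rw [h4, htw] at hψχ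
        omega
      · rw [h4, map_neg, htw] at hχψ
        omega
      · exact h4.1
    obtain ⟨j, hj⟩ := c'.full (-ψ) (hRS.neg_mem hψ) (by
      rw [hRS.neg_b hψ (show η - x ∈ {ω | Wt 𝒜 ω} from ⟨z, h1⟩), map_sub, hψη, hψb]
      ring)
    have h4 := ha' j
    rw [← hj] at h4
    obtain ⟨h5, h6⟩ := h.az _ (H63X.c03_vx_neg H (hVx hψ)) z h4
    rw [neg_neg] at h6
    have h7 := H63X.root_sub H hN (h.root _ (hVx hψ)) h6 h5 hx' (by
      rw [map_sub, hψb, hψχ]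
      omega)
    apply hnx
    have h8 : x - χ 0 - ψ = -x := by rw [hψx]; abel
    rwa [h8] at h7
  -- the mixing lemma
  refine hmix N hN (-χ 0) (H63X.c03_vx_neg H hv) _ _ _ _ (h.rt _ hv).neg z
    (val_zero z (neg_ne_zero.2 (vx_ne hv)) (h.rt _ hv).hF hn2)
    (val_zero z (vx_ne hv) (h.rt _ hv).hE hn1) (-η) ?_ ?_ ?_ ?_ ?_ ?_ ?_ x hx ?_ ?_ ?_ ?_ ?_
  · rw [htwo, two_nsmul]
    abel
  · rw [← hηχ]; exact hPi
  · rw [neg_neg]; exact hη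
  · rw [← hηχ]; exact hOne'
  · rw [neg_neg]; exact hOne
  · rw [← hηχ]; exact hNf
  · intro y n hn hy _
    rw [neg_neg] at hy
    exact C.low y n η hn (by rw [hy]; abel) ⟨z, hη⟩ hl
  · rw [AddMonoidHom.neg_apply, hbx]
  · rw [neg_neg]; exact hxη
  · have h1 : 2 • x + -χ 0 = ψ := by rw [hψx, two_nsmul]; abel
    rw [h1]
    exact hVx hψ
  · have h1 : -(x + -η) = η - x := by abel
    rw [h1]
    exact hne
  · intro y w hw hw3
    rw [← sub_eq_add_neg] at hw3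
    exact C.bd y w hw (hbd w hw3)

/-- No tangent weight of `z` is `≤ 0`. -/
theorem no_eta (H : H63X.Hyp 𝒜) (hmix : MixP 𝒜) (h : RD 𝒜 N b al E F a) {z : FP 𝒜}
    {l : (Fin r → ℤ) →+ ℤ} (C : Ctx 𝒜 z l)
    (hs : ∀ ω, Wt 𝒜 ω → l ω ≤ 0 → ∑ χ ∈ H63X.VV H, a χ z * b χ ω ≤ 0) {η : Fin r → ℤ}
    (hη : z.Pi η) (hl : l η ≤ 0) : False := by
  obtain ⟨n, χ, c, hn1, ha, -, -, hPi, hOne, hOne', hNf⟩ := eta_step H h C hs hη hl
  rcases Nat.lt_or_ge n 2 with hn | hn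
  · obtain rfl : n = 1 := by omega
    exact no_one H hmix h C hs hη hl c (ha 0) (hPi 0) hOne (hOne' 0) (hNf 0)
  · exact no_big H h C hη hl c hn ha hPi hOne hOne'

/-- The context from the liftability at the lower points. -/
theorem ctx_of (H : H63X.Hyp 𝒜) {z : FP 𝒜} {l : (Fin r → ℤ) →+ ℤ} (hBd : Bd 𝒜)
    {ω : Fin r → ℤ} (hω : ¬ Lf 𝒜 z ω)
    (hlow : ∀ (y : FP 𝒜) (n : ℕ) (w : Fin r → ℤ), 1 ≤ n → y.ν = z.ν + n • w → Wt 𝒜 w →
      l w ≤ 0 → ∀ ω, Lf 𝒜 y ω) : Ctx 𝒜 z l where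
  low := hlow
  nf := fun w hw hlw D hD x => by
    by_contra h1
    exact hω (claim0 H z (H63X.c03_wt_ne_zero H hw) hD h1
      (fun y n hn hy _ => hlow y n w hn hy hw hlw) ω)
  bd := hBd

/-- **END.** -/
theorem end_of (H : H63X.Hyp 𝒜) (hmix : MixP 𝒜) (hBd : Bd 𝒜) (hS : Src 𝒜) (z : FP 𝒜)
    (ω : Fin r → ℤ) : Lf 𝒜 z ω := by
  classical
  by_contra hcon
  obtain ⟨N, b, al, E, F, a, h⟩ := exists_RD H
  obtain ⟨z, l, ⟨ω, hP⟩, hmin, hne, hs⟩ := exists_min H h (P := fun z => ∃ ω, ¬ Lf 𝒜 z ω)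
    ⟨z, ω, hcon⟩
  have hneg : ∀ w, Wt 𝒜 w → l w ≤ 0 → l w < 0 := fun w hw h1 => lt_of_le_of_ne h1 (hne w hw)
  have C : Ctx 𝒜 z l := ctx_of H hBd hP (fun y n w hn hy hw hlw ω => by
    by_contra h1
    refine absurd (hmin y ⟨ω, h1⟩) (not_le.2 ?_)
    rw [hy, map_add, map_nsmul, nsmul_eq_mul]
    have h2 : (1 : ℤ) ≤ n := by exact_mod_cast hn
    have h3 := hneg w hw hlw
    nlinarith)
  by_cases hpos : Pos l z
  · exact hP (hS l hne z hpos ω)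
  · obtain ⟨η, hη, hl⟩ : ∃ η, z.Pi η ∧ l η < 0 := by
      by_contra h1
      push Not at h1
      exact hpos h1
    exact no_eta H hmix h C (fun ω hω h1 => hs ω hω (hneg ω hω h1)) hη hl.le

end Vale.Agent.P280.H60
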