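import Vale.Agent.P280.H309.MidB

/-! P280, T7, helper60: the component `A_3` with vector weights: letters. -/

open DirectSum Vale.Agent.P280.T Vale.Agent.P280.H127

namespace Vale.Agent.P280.H60

open Vale.Agent.P280.N Vale.Agent.P280.H490 Vale.Agent.P280.H143

variable {r : ℕ} {R : Type} [CommRing R] [IsDomain R] [Algebra ℂ R]
  {𝒜 : ℕ × (Fin r → ℤ) → Submodule ℂ R}

/-- The letters of a component `A_3` with vector weights. -/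
structure L4 (𝒜 : ℕ × (Fin r → ℤ) → Submodule ℂ R) (N : ℤ)
    (b : (Fin r → ℤ) → ((Fin r → ℤ) →+ ℤ)) (f : Fin 4 → Fin r → ℤ) : Prop where
  sum : f 0 + f 1 + f 2 + f 3 = 0
  wt : ∀ i, Wt 𝒜 (f i)
  wtn : ∀ i, Wt 𝒜 (-f i)
  vx : ∀ i j, i ≠ j → Vx 𝒜 (f i - f j)
  be : ∀ i j k, i ≠ j → b (f i - f j) (f k) = (if k = i then N else 0) - (if k = j then N else 0)
  S : ∀ μ, Wt 𝒜 μ → (∀ i j, i ≠ j → b (f i - f j) μ = 0) ∨ (∃ i j, i ≠ j ∧ μ = f i - f j) ∨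
    (∃ i, μ = f i ∨ μ = -f i) ∨ (∃ i j, i ≠ j ∧ μ = f i + f j)
  vec : ∀ i j, i ≠ j → Wt 𝒜 (f i + f j)

/-- The main case: sorted letters. -/
def VecTop (𝒜 : ℕ × (Fin r → ℤ) → Submodule ℂ R) : Prop :=
  ∀ (N : ℤ) (b : (Fin r → ℤ) → ((Fin r → ℤ) →+ ℤ)) (al : (Fin r → ℤ) → ℂ)
    (E F : (Fin r → ℤ) → Derivation ℂ R R) (a : (Fin r → ℤ) → FP 𝒜 → ℤ), RD 𝒜 N b al E F a →
  ∀ f : Fin 4 → Fin r → ℤ, L4 𝒜 N b f → ∀ c : (Fin r → ℤ) →+ ℤ, (∀ μ, Wt 𝒜 μ → c μ ≠ 0) →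
  ∀ p : FP 𝒜, Pos c p → c (f 1) < c (f 2) → c (f 2) < c (f 3) → 0 < c (f 0) + c (f 1) →
  ∀ i, Lf 𝒜 p (f i) ∧ Lf 𝒜 p (-f i)

end Vale.Agent.P280.H60
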